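import Mathlib.Analysis.RCLike.Basic
import Mathlib.Analysis.Normed.Module.Basic
import Mathlib.Analysis.Normed.Group.Quotient
import Mathlib.LinearAlgebra.FiniteDimensional.Defs
import Mathlib.Topology.Algebra.Module.ContinuousLinearMap.Basic

/-! Definitions: closed subspaces of infinite codimension. -/

namespace Vale.Agent.N129X

universe u

variable {𝕜 : Type} [RCLike 𝕜] {X : Type u} [NormedAddCommGroup X] [NormedSpace 𝕜 X]

/-- `Y` is a closed subspace of infinite codimension. -/
def InfCodim (Y : Submodule 𝕜 X) : Prop :=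
  IsClosed (Y : Set X) ∧ ¬ FiniteDimensional 𝕜 (X ⧸ Y)

/-- `S` is strictly cosingular: for no closed subspace `M` of infinite codimension is
`X → X → X/M` onto. -/
def Cosingular (S : X →L[𝕜] X) : Prop :=
  ∀ M : Submodule 𝕜 X, InfCodim M → ¬ Function.Surjective fun x => M.mkQ (S x)

variable (𝕜 X)

/-- The closed span of countably many closed subspaces of infinite codimension has infinite
codimension. -/
def SigmaCodim : Prop :=
  ∀ Y : ℕ → Submodule 𝕜 X, (∀ n, InfCodim (Y n)) → InfCodim (⨆ n, Y n).topologicalClosure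

/-- If two closed subspaces meet only in `0` and have dense sum, then one of them is
finite-dimensional. -/
def NoQuasiCompl : Prop :=
  ∀ Y Z : Submodule 𝕜 X, IsClosed (Y : Set X) → IsClosed (Z : Set X) → Y ⊓ Z = ⊥ →
    Dense ((Y ⊔ Z : Submodule 𝕜 X) : Set X) → FiniteDimensional 𝕜 Y ∨ FiniteDimensional 𝕜 Z

/-- All quotients by closed subspaces have the property `SigmaCodim`. -/
def QuotSigma : Prop := ∀ (M : Submodule 𝕜 X) [IsClosed (M : Set X)], SigmaCodim 𝕜 (X ⧸ M)

/-- Every bounded operator is a scalar plus a strictly cosingular operator. -/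
def FewOperators : Prop := ∀ T : X →L[𝕜] X, ∃ c : 𝕜, Cosingular (T - c • (1 : X →L[𝕜] X))

end Vale.Agent.N129X
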