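import Vale.Agent.N129X.Gen

/-! Operators on complex spaces with the countable property. -/

namespace Vale.Agent.N129X

open Set Filter Topology BoundedContinuousFunction Vale.Agent.P129Z.S Vale.Agent.N129

universe u

theorem exists_not_surjective {E : Type u} [NormedAddCommGroup E] [NormedSpace ℂ E]
    [CompleteSpace E] [Nontrivial E] (A : E →L[ℂ] E) :
    ∃ c : ℂ, ¬ Function.Surjective (A - c • (1 : E →L[ℂ] E)) := by
  by_contra hcon
  push Not at hcon
  have h0 : ∀ c : ℂ, c ∈ resolventSet ℂ A ↔ IsUnit (A - c • (1 : E →L[ℂ] E)) := fun c => by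
    rw [spectrum.mem_resolventSet_iff, Algebra.algebraMap_eq_smul_one, ← neg_sub, IsUnit.neg_iff]
  have h1 : IsClosed (resolventSet ℂ A) := by
    refine isClosed_of_closure_subset fun c hc => ?_
    obtain ⟨C, hC, h2⟩ := (A - c • (1 : E →L[ℂ] E)).exists_preimage_norm_le (hcon c)
    obtain ⟨d, hd, h3⟩ := Metric.mem_closure_iff.1 hc (1 / (4 * C)) (by positivity)
    rw [dist_eq_norm, lt_div_iff₀ (by positivity)] at h3
    obtain ⟨U, hU⟩ := (h0 d).1 hd
    set R : E →L[ℂ] E := ↑U⁻¹ with hR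
    have h4 : ∀ x, R ((A - c • (1 : E →L[ℂ] E)) x) = x - (c - d) • R x := by
      intro x
      have h5 : R ((A - d • (1 : E →L[ℂ] E)) x) = x := by
        rw [← hU, ← mul_apply_eq_comp, hR, U.inv_mul, one_apply_eq_self]
      have h6 : (A - c • (1 : E →L[ℂ] E)) x = (A - d • (1 : E →L[ℂ] E)) x - (c - d) • x := by
        simp only [_root_.sub_apply, _root_.smul_apply, one_apply_eq_self, sub_smul]
        abel
      rw [h6, map_sub, h5, map_smul]
    have h5 : ‖R‖ ≤ C + ‖c - d‖ * (‖R‖ * C) := by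
      refine ContinuousLinearMap.opNorm_le_bound _ (by positivity) fun y => ?_
      obtain ⟨x, rfl, h6⟩ := h2 y
      rw [h4]
      refine (norm_sub_le _ _).trans ?_
      rw [norm_smul, add_mul]
      refine add_le_add h6 ?_
      rw [mul_assoc, mul_assoc]
      exact mul_le_mul_of_nonneg_left (R.le_opNorm_of_le h6) (norm_nonneg _)
    have h6 : ‖R‖ ≤ 2 * C := by nlinarith [norm_nonneg R, norm_nonneg (c - d)]
    rw [h0, ContinuousLinearMap.isUnit_iff_bijective]
    refine ⟨(injective_iff_map_eq_zero _).2 fun x hx => ?_, hcon c⟩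
    have h7 := h4 x
    rw [hx, map_zero, eq_comm, sub_eq_zero] at h7
    have h8 : ‖x‖ ≤ ‖c - d‖ * (2 * C * ‖x‖) := by
      conv_lhs => rw [h7, norm_smul]
      exact mul_le_mul_of_nonneg_left (R.le_of_opNorm_le h6 x) (norm_nonneg _)
    rw [← norm_le_zero_iff]
    nlinarith [norm_nonneg x]
  have h2 : resolventSet ℂ A = univ :=
    IsClopen.eq_univ ⟨h1, spectrum.isOpen_resolventSet A⟩
      ⟨((‖A‖ + 1 : ℝ) : ℂ), spectrum.mem_resolventSet_of_norm_lt (by
        rw [Complex.norm_real, Real.norm_of_nonneg (by positivity)]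
        linarith)⟩
  obtain ⟨c, hc⟩ := spectrum.nonempty A
  exact hc (h2 ▸ mem_univ c)

variable {X : Type u} [NormedAddCommGroup X] [NormedSpace ℂ X]

variable (X) in
/-- bounded sequences in finite-dimensional subspaces -/
def finSeq : Submodule ℂ (ℕ →ᵇ X) where
  carrier := {f | ∃ F : Submodule ℂ X, FiniteDimensional ℂ F ∧ ∀ n, f n ∈ F}
  add_mem' := by
    rintro f g ⟨F, _, hf⟩ ⟨G, _, hg⟩
    exact ⟨F ⊔ G, inferInstance, fun n => Submodule.add_mem_sup (hf n) (hg n)⟩
  zero_mem' := ⟨⊥, inferInstance, fun _ => Submodule.zero_mem _⟩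
  smul_mem' := by
    rintro c f ⟨F, hF, hf⟩
    exact ⟨F, hF, fun n => F.smul_mem c (hf n)⟩

theorem finSeq_ne (h : ¬ FiniteDimensional ℂ X) : (finSeq X).topologicalClosure ≠ ⊤ := by
  intro h1
  obtain ⟨R, f, -, h2, h3⟩ := exists_seq_norm_le_one_le_norm_sub h
  have h4 : ofNormedAddCommGroupDiscrete f R h2 ∈ closure (finSeq X : Set (ℕ →ᵇ X)) := by
    rw [← Submodule.topologicalClosure_coe, h1]
    trivial
  obtain ⟨g, ⟨F, _, hF⟩, h5⟩ := Metric.mem_closure_iff.1 h4 (1 / 4) (by norm_num)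
  have := FiniteDimensional.proper ℂ F
  obtain ⟨a, -, φ, hφ, h6⟩ := tendsto_subseq_of_bounded (Metric.isBounded_closedBall
    (x := (0 : F)) (r := ‖g‖)) (x := fun n => (⟨g n, hF n⟩ : F))
    fun n => mem_closedBall_zero_iff.2 (g.norm_coe_le_norm n)
  obtain ⟨N, hN⟩ := Metric.cauchySeq_iff'.1 h6.cauchySeq (1 / 4) (by norm_num)
  have h7 : dist (g (φ (N + 1))) (g (φ N)) < 1 / 4 := hN (N + 1) (Nat.le_succ N)
  have h8 : ∀ n, dist (f n) (g n) < 1 / 4 := fun n => (dist_coe_le_dist n).trans_lt h5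
  have h9 := h3 (hφ (Nat.lt_succ_self N)).ne'
  have h10 := dist_triangle4 (f (φ (N + 1))) (g (φ (N + 1))) (g (φ N)) (f (φ N))
  rw [dist_eq_norm, dist_comm (g (φ N))] at h10
  linarith [h8 (φ (N + 1)), h8 (φ N)]

/-- the operator induced on bounded sequences modulo totally bounded sequences -/
noncomputable def seqOp (T : X →L[ℂ] X) :
    ((ℕ →ᵇ X) ⧸ (finSeq X).topologicalClosure) →L[ℂ] (ℕ →ᵇ X) ⧸ (finSeq X).topologicalClosure :=
  (finSeq X).topologicalClosure.liftQL
    ((finSeq X).topologicalClosure.mkQL.comp (T.compLeftContinuousBounded ℕ)) fun _ hf =>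
      (Submodule.Quotient.mk_eq_zero _).2 (map_mem_closure
        (T.compLeftContinuousBounded ℕ).continuous hf (by
          rintro g ⟨F, _, hg⟩
          exact ⟨F.map (T : X →ₗ[ℂ] X), inferInstance, fun n => ⟨g n, hg n, rfl⟩⟩))

theorem exists_infCodim [CompleteSpace X] (h : ¬ FiniteDimensional ℂ X)
    (hSQ : ¬ HasSeparableQuotient ℂ X) (T : X →L[ℂ] X) :
    ∃ c : ℂ, InfCodim (T - c • (1 : X →L[ℂ] X)).range.topologicalClosure := by
  have h1 : IsClosed ((finSeq X).topologicalClosure : Set (ℕ →ᵇ X)) :=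
    Submodule.isClosed_topologicalClosure _
  have := Submodule.Quotient.nontrivial_iff.2 (finSeq_ne h)
  obtain ⟨c, hc⟩ := exists_not_surjective (seqOp T)
  refine ⟨c, Submodule.isClosed_topologicalClosure _, fun h2 => hc fun q => ?_⟩
  set S := T - c • (1 : X →L[ℂ] X) with hS
  set R := S.range.topologicalClosure with hR
  have h3 : IsClosed (R : Set X) := Submodule.isClosed_topologicalClosure _
  have : CompleteSpace R := h3.completeSpace_coe
  have h4 : ∀ x, S x ∈ R := fun x => Submodule.le_topologicalClosure _ ⟨x, rfl⟩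
  have h5 : Function.Surjective (S.codRestrict R h4) := by
    refine surjective_of_denseRange (fun k => hSQ (hasSQ_of_finite_codim R h3 h2 k)) _ ?_
    rw [DenseRange, Subtype.dense_iff]
    refine closure_mono ?_
    rintro _ ⟨x, rfl⟩
    exact ⟨_, ⟨x, rfl⟩, rfl⟩
  obtain ⟨C, hC, h6⟩ := (S.codRestrict R h4).exists_preimage_norm_le h5
  obtain ⟨P, hP⟩ := Submodule.ClosedComplemented.of_finiteDimensional_quotient h3
  obtain ⟨f, rfl⟩ := Submodule.mkQ_surjective _ q
  choose g hg1 hg2 using fun n => h6 (P (f n))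
  refine ⟨Submodule.mkQ _ (ofNormedAddCommGroupDiscrete g (C * (‖P‖ * ‖f‖)) fun n =>
    (hg2 n).trans (mul_le_mul_of_nonneg_left (P.le_opNorm_of_le (f.norm_coe_le_norm n)) hC.le)),
    ?_⟩
  change (finSeq X).topologicalClosure.mkQ _ - c • (finSeq X).topologicalClosure.mkQ _ = _
  rw [← map_smul, ← map_sub]
  refine (Submodule.Quotient.eq _).2 (Submodule.le_topologicalClosure _ ⟨P.ker, ?_, fun n => ?_⟩)
  · refine FiniteDimensional.of_injective (R.mkQ.comp P.ker.subtype) ?_
    rw [← LinearMap.ker_eq_bot, eq_bot_iff]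
    intro b hb
    have h7 := hP ⟨b, (Submodule.Quotient.mk_eq_zero R).1 hb⟩
    have h8 : P b = 0 := b.2
    have h9 : (b : X) = 0 := congrArg (fun r : R => (r : X)) (h7.symm.trans h8)
    exact Subtype.ext h9
  · have h7 : S (g n) = P (f n) := congrArg Subtype.val (hg1 n)
    change P (S (g n) - f n) = 0
    rw [h7, map_sub, hP, sub_self]

theorem NoDense.operators [CompleteSpace X] (h : NoDense ℂ X) (T : X →L[ℂ] X) :
    ∃ c : ℂ, Cosingular (T - c • (1 : X →L[ℂ] X)) := by
  by_cases hX : FiniteDimensional ℂ X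
  · exact ⟨0, fun M hM _ => hM.2 inferInstance⟩
  obtain ⟨c, hc⟩ := exists_infCodim hX h.not_hasSQ T
  refine ⟨c, fun M hM h1 => h.two hc hM fun x => subset_closure ?_⟩
  obtain ⟨y, hy⟩ := h1 (M.mkQ x)
  rw [SetLike.mem_coe, ← add_sub_cancel ((T - c • (1 : X →L[ℂ] X)) y) x]
  exact Submodule.add_mem_sup (Submodule.le_topologicalClosure _ ⟨y, rfl⟩)
    ((Submodule.Quotient.eq M).1 hy.symm)

end Vale.Agent.N129X
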