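import Vale.Agent.N129X.Real
import Vale.Agent.N129X.Ops
import Vale.Agent.N129.Final

/-! Assembly. -/

namespace Vale.Agent.N129X

open Set Cardinal Vale.Agent.P129Z.S Vale.Agent.P129 Vale.Agent.N129 H448

universe u v

section

variable {X : Type u} [NormedAddCommGroup X] [NormedSpace ℝ X]
  {Z : Type v} [NormedAddCommGroup Z] [NormedSpace ℝ Z]

theorem appr_image {κ : Cardinal.{0}} (hκ : ℵ₀ ≤ κ) {S : Set X} (h : Appr κ S) (T : X →L[ℝ] Z)
    {C : ℝ} (hC : 0 < C) : Appr κ {z | ∃ x ∈ S, T x = z ∧ ‖x‖ ≤ C * ‖z‖} := by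
  classical
  obtain ⟨ι, g, h1, h2⟩ := h
  let P : ι × ℕ → StrongDual ℝ Z → Prop := fun p f =>
    ∀ x ∈ S, |f (T x) - g p.1 x| ≤ 1 / ((p.2 : ℝ) + 1) * ‖x‖
  refine ⟨ι × ℕ, fun p => if h : ∃ f, P p f then h.choose else 0, ?_, fun f ε hε => ?_⟩
  · rw [Cardinal.mk_prod, Cardinal.lift_id, Cardinal.lift_id, ← Cardinal.mul_eq_self hκ,
      Cardinal.mk_nat]
    gcongr
  · obtain ⟨n, hn⟩ := exists_nat_one_div_lt (show 0 < ε / (2 * C) by positivity)
    obtain ⟨i, hi⟩ := h2 (f.comp T) (1 / ((n : ℝ) + 1)) (by positivity)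
    have h3 : ∃ f, P (i, n) f := ⟨f, hi⟩
    refine ⟨(i, n), ?_⟩
    rintro _ ⟨x, hx, rfl, h4⟩
    have h5 : |h3.choose (T x) - g i x| ≤ 1 / ((n : ℝ) + 1) * ‖x‖ := h3.choose_spec x hx
    have h6 : |f (T x) - g i x| ≤ 1 / ((n : ℝ) + 1) * ‖x‖ := hi x hx
    have h7 := abs_sub_le (f (T x)) (g i x) (h3.choose (T x))
    rw [abs_sub_comm (g i x)] at h7
    rw [lt_div_iff₀ (by positivity)] at hn
    have h8 := mul_le_mul_of_nonneg_left h4 (show 0 ≤ 1 / ((n : ℝ) + 1) by positivity)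
    have h9 := mul_le_mul_of_nonneg_right hn.le (norm_nonneg (T x))
    simp only [dif_pos h3]
    linarith

theorem good_of_surjective [CompleteSpace X] [CompleteSpace Z] (h : Good X) (T : X →L[ℝ] Z)
    (hT : Function.Surjective T) : Good Z := by
  obtain ⟨C, hC, h1⟩ := T.exists_preimage_norm_le hT
  choose s hs1 hs2 using h1
  refine ⟨?_, (appr_image (Cardinal.aleph0_le_aleph 1) h.2 T hC).mono fun z _ =>
    ⟨s z, trivial, hs1 z, hs2 z⟩⟩
  rintro S ⟨c, hc, hS⟩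
  exact (appr_image le_rfl (h.1 _ (hc.image s).isSeparable) T hC).closure.mono
    (hS.trans (closure_mono fun z hz => ⟨s z, ⟨z, hz, rfl⟩, hs1 z, hs2 z⟩))

end

theorem exists_real (h : H189.nonMeagre = ℵ_ 1) :
    ∃ (X : Type) (_ : NormedAddCommGroup X) (_ : NormedSpace ℝ X) (_ : CompleteSpace X),
      ¬ FiniteDimensional ℝ X ∧ NoDense ℝ X ∧ Good X := by
  obtain ⟨𝓕, h𝓕⟩ := exists_hitsAll h
  obtain ⟨G, hG⟩ := H223.exists_generators frame 𝓕.system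
  have h1 := H3.no_quotient_prod (H223.projSystem frame exists_gt_of_countable) countable_Iio
    (Submodule.span ℝ (Set.range frame.e))
    (fun a b hab w hwa hwb ε hε => H223.frame_dense_interval frame a b hab w hwa hwb ε hε) G.X
    (H223.hdual_of_lin G.X fun f C hf => H168.dualIsV frame 𝓕.system G f C hf)
    (H223.supply_of_kills (kills_system h𝓕.killsAll) G hG)
  exact ⟨XT G, inferInstance, inferInstance, completeSpace_XT G, not_finite_XT G,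
    not_dense h𝓕 G hG h1.1, good_XT G⟩

theorem sigma_iff (𝕜 : Type) [RCLike 𝕜] :
    (∃ S : Set ℝ, #S = ℵ₁ ∧ ¬ IsMeagre S) ↔
      ∃ (X : Type u) (_ : NormedAddCommGroup X) (_ : NormedSpace 𝕜 X), CompleteSpace X ∧
        ¬ FiniteDimensional 𝕜 X ∧ @IsAsplund X _ (NormedSpace.restrictScalars ℝ 𝕜 X) ∧
        SmallDual 𝕜 X ∧ SigmaCodim 𝕜 X := by
  refine ⟨fun h => ?_, fun ⟨X, _, _, h1, h2, h3, h4, h5⟩ =>
    (asplund_iff' 𝕜).2 ⟨X, _, _, h1, h2, h3, h4, h5.noDense.not_hasSQ⟩⟩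
  obtain ⟨X, _, _, _, h1, h2, h3⟩ := exists_real (nonMeagre_iff.1 h)
  obtain ⟨Z, _, _, _, h4, h5, g, hgc, hg, hgs⟩ := exists_scalars 𝕜 h1 h2
  let e : ULift.{u} Z ≃L[𝕜] Z := ContinuousLinearEquiv.ulift
  let _ := NormedSpace.restrictScalars ℝ 𝕜 (ULift.{u} Z)
  have h6 : @Good (ULift.{u} Z) _ (NormedSpace.restrictScalars ℝ 𝕜 (ULift.{u} Z)) :=
    good_of_surjective (h3.prod h3)
      { toFun := fun p => ULift.up (g p)
        map_add' := fun p q => by rw [map_add]; rfl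
        map_smul' := fun r p => by rw [hgs]; rfl
        cont := continuous_uliftUp.comp hgc } (ULift.up_surjective.comp hg)
  refine ⟨ULift.{u} Z, _, _, inferInstance, fun h7 => h4 (Module.Finite.equiv e.toLinearEquiv),
    isAsplund_of h6.1, ?_, (h5.of_surjective (e.symm : Z →L[𝕜] ULift.{u} Z)
      e.symm.surjective).sigma⟩
  have := RestrictScalars.isScalarTower ℝ 𝕜 (ULift.{u} Z)
  obtain ⟨ι, k, h7, h8⟩ := @Appr.dense_dual 𝕜 _ (ULift.{u} Z) _ _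
    (NormedSpace.restrictScalars ℝ 𝕜 (ULift.{u} Z)) this _ ⊤ h6.2
  let T : ULift.{u} Z →L[𝕜] (⊤ : Submodule 𝕜 (ULift.{u} Z)) :=
    (ContinuousLinearMap.id 𝕜 _).codRestrict ⊤ fun _ => trivial
  have h9 : Function.Surjective fun φ : StrongDual 𝕜 (⊤ : Submodule 𝕜 (ULift.{u} Z)) =>
      φ.comp T := fun f => ⟨f.comp (⊤ : Submodule 𝕜 (ULift.{u} Z)).subtypeL, rfl⟩
  refine ⟨Set.range fun i => (k i).comp T, h9.denseRange.comp h8 (by fun_prop), ?_⟩
  have h10 := Cardinal.mk_range_le_lift (f := fun i => (k i).comp T)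
  rw [Cardinal.lift_id'] at h10
  refine h10.trans ((Cardinal.lift_le.2 h7).trans (le_of_eq ?_))
  simp

theorem consequences (𝕜 : Type) [RCLike 𝕜] (X : Type u) [NormedAddCommGroup X] [NormedSpace 𝕜 X]
    [CompleteSpace X] (h : SigmaCodim 𝕜 X) :
    ¬ HasSeparableQuotient 𝕜 X ∧ NoQuasiCompl 𝕜 X ∧
      ∀ (M : Submodule 𝕜 X) [IsClosed (M : Set X)], SigmaCodim 𝕜 (X ⧸ M) :=
  ⟨h.noDense.not_hasSQ, h.noDense.noQuasiCompl,
    fun M _ => (h.noDense.of_surjective M.mkQL M.mkQ_surjective).sigma⟩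

end Vale.Agent.N129X
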