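import Vale.Agent.N129X.Defs
import Vale.Agent.N129.Range
import Vale.Agent.P129.H3.Cx

/-! General facts on spaces with the countable property. -/

namespace Vale.Agent.N129X

open Set Filter Topology Vale.Agent.P129Z.S Vale.Agent.P129 Vale.Agent.N129

universe u v

variable {𝕜 : Type} [RCLike 𝕜] {X : Type u} [NormedAddCommGroup X] [NormedSpace 𝕜 X]
  {Q : Type v} [NormedAddCommGroup Q] [NormedSpace 𝕜 Q]

variable (𝕜 X) in
/-- the weak form of the property -/
def NoDense : Prop :=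
  ∀ Y : ℕ → Submodule 𝕜 X, (∀ n, InfCodim (Y n)) →
    ¬ Dense ((⨆ n, Y n : Submodule 𝕜 X) : Set X)

theorem InfCodim.sup {Y : Submodule 𝕜 X} (h : InfCodim Y) (F : Submodule 𝕜 X)
    [FiniteDimensional 𝕜 F] : InfCodim (Y ⊔ F) := by
  refine ⟨Submodule.isClosed_sup_finiteDimensional _ _ h.1, fun h1 => h.2 ?_⟩
  have h2 : FiniteDimensional 𝕜 ((X ⧸ Y) ⧸ (Y ⊔ F).map Y.mkQ) :=
    Module.Finite.equiv (Submodule.quotientQuotientEquivQuotient Y (Y ⊔ F) le_sup_left).symm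
  have h3 : FiniteDimensional 𝕜 ((Y ⊔ F).map Y.mkQ) := by
    rw [Submodule.map_sup, Submodule.mkQ_map_self, bot_sup_eq]
    infer_instance
  exact Module.Finite.of_submodule_quotient ((Y ⊔ F).map Y.mkQ)

theorem exists_compl {E : Type*} [AddCommGroup E] [Module 𝕜 E] (Z : Submodule 𝕜 E)
    [FiniteDimensional 𝕜 (E ⧸ Z)] : ∃ F : Submodule 𝕜 E, FiniteDimensional 𝕜 F ∧ Z ⊔ F = ⊤ := by
  obtain ⟨F, hF⟩ := Submodule.exists_isCompl Z
  exact ⟨F, Module.Finite.equiv (Submodule.quotientEquivOfIsCompl Z F hF), hF.sup_eq_top⟩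

theorem NoDense.sigma (h : NoDense 𝕜 X) : SigmaCodim 𝕜 X := by
  intro Y hY
  refine ⟨Submodule.isClosed_topologicalClosure _, fun h1 => ?_⟩
  obtain ⟨F, hF, h2⟩ := exists_compl (⨆ n, Y n).topologicalClosure
  refine h (fun n => Y n ⊔ F) (fun n => (hY n).sup F) ?_
  rw [Submodule.dense_iff_topologicalClosure_eq_top, eq_top_iff, ← h2]
  exact sup_le (Submodule.topologicalClosure_mono (iSup_mono fun n => le_sup_left))
    ((le_sup_right.trans (le_iSup (fun n => Y n ⊔ F) 0)).trans (Submodule.le_topologicalClosure _))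

theorem SigmaCodim.noDense (h : SigmaCodim 𝕜 X) : NoDense 𝕜 X := by
  intro Y hY h1
  refine (h Y hY).2 ?_
  rw [Submodule.dense_iff_topologicalClosure_eq_top.1 h1]
  infer_instance

theorem NoDense.two (h : NoDense 𝕜 X) {Y Z : Submodule 𝕜 X} (hY : InfCodim Y) (hZ : InfCodim Z) :
    ¬ Dense ((Y ⊔ Z : Submodule 𝕜 X) : Set X) := fun h1 =>
  h (fun n => if n = 0 then Y else Z) (fun n => by split_ifs <;> assumption)
    (h1.mono (SetLike.coe_subset_coe.2 (sup_le (le_iSup_of_le 0 (by simp))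
      (le_iSup_of_le 1 (by simp)))))

theorem InfCodim.comap {Y : Submodule 𝕜 Q} (h : InfCodim Y) (T : X →L[𝕜] Q)
    (hT : Function.Surjective T) : InfCodim (Y.comap (T : X →ₗ[𝕜] Q)) := by
  refine ⟨h.1.preimage T.continuous, fun h1 => h.2 ?_⟩
  refine Module.Finite.of_surjective (Submodule.mapQ _ Y (T : X →ₗ[𝕜] Q) le_rfl) fun q => ?_
  obtain ⟨q, rfl⟩ := Y.mkQ_surjective q
  obtain ⟨x, rfl⟩ := hT q
  exact ⟨Submodule.Quotient.mk x, rfl⟩

theorem NoDense.of_surjective [CompleteSpace X] [CompleteSpace Q] (h : NoDense 𝕜 X)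
    (T : X →L[𝕜] Q) (hT : Function.Surjective T) : NoDense 𝕜 Q := by
  intro Y hY h1
  refine h (fun n => (Y n).comap (T : X →ₗ[𝕜] Q)) (fun n => (hY n).comap T hT)
    ((h1.preimage (T.isOpenMap hT)).mono fun x hx => ?_)
  have h2 : (⨆ n, Y n) ≤ (⨆ n, (Y n).comap (T : X →ₗ[𝕜] Q)).map (T : X →ₗ[𝕜] Q) :=
    iSup_le fun n q hq => by
      obtain ⟨x, rfl⟩ := hT q
      exact ⟨x, Submodule.mem_iSup_of_mem n hq, rfl⟩
  obtain ⟨x', h3, h4⟩ := h2 hx
  rw [SetLike.mem_coe, ← add_sub_cancel x' x]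
  refine Submodule.add_mem _ h3 (Submodule.mem_iSup_of_mem 0 ?_)
  rw [Submodule.mem_comap, map_sub, h4]
  simp

theorem NoDense.of_real [NormedSpace ℝ X] [IsScalarTower ℝ 𝕜 X] (h : NoDense ℝ X) :
    NoDense 𝕜 X := by
  intro Y hY h1
  refine h (fun n => (Y n).restrictScalars ℝ) (fun n => ⟨(hY n).1, fun h2 => (hY n).2 ?_⟩) ?_
  · have h3 : Module.Finite ℝ (X ⧸ Y n) := h2
    exact Module.Finite.of_restrictScalars_finite ℝ 𝕜 (X ⧸ Y n)
  · rw [← Submodule.restrictScalars_iSup]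
    exact h1

theorem NoDense.not_hasSQ (h : NoDense 𝕜 X) : ¬ HasSeparableQuotient 𝕜 X := by
  rintro ⟨M, hM, hs, hd⟩
  obtain ⟨d, hd'⟩ := TopologicalSpace.exists_dense_seq (X ⧸ M)
  choose x hx using fun n => M.mkQ_surjective (d n)
  refine h (fun n => M ⊔ Submodule.span 𝕜 {x n}) (fun n => InfCodim.sup ⟨hM, hd⟩ _)
    ((hd'.preimage M.isOpenMap_mkQ).mono ?_)
  rintro z ⟨n, hn⟩
  refine Submodule.mem_iSup_of_mem n ?_
  rw [← sub_add_cancel z (x n)]
  refine Submodule.add_mem_sup ((Submodule.Quotient.eq M).1 ?_)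
    (Submodule.mem_span_singleton_self _)
  exact hn.symm.trans (hx n).symm

theorem NoDense.noQuasiCompl (h : NoDense 𝕜 X) : NoQuasiCompl 𝕜 X := by
  intro Y Z hY hZ h1 h2
  by_contra h3
  push Not at h3
  have key : ∀ A B : Submodule 𝕜 X, A ⊓ B = ⊥ → ¬ FiniteDimensional 𝕜 B →
      ¬ FiniteDimensional 𝕜 (X ⧸ A) := by
    intro A B hAB hB h4
    refine hB (FiniteDimensional.of_injective (A.mkQ.comp B.subtype) ?_)
    rw [← LinearMap.ker_eq_bot, eq_bot_iff]
    intro b hb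
    have h5 : (b : X) ∈ A ⊓ B := ⟨(Submodule.Quotient.mk_eq_zero A).1 hb, b.2⟩
    rw [hAB] at h5
    exact Subtype.ext h5
  exact h.two ⟨hY, key Y Z h1 h3.2⟩ ⟨hZ, key Z Y (inf_comm Y Z ▸ h1) h3.1⟩ h2

/-- Extension of the scalars. -/
theorem exists_scalars (𝕜 : Type) [RCLike 𝕜] {X : Type} [NormedAddCommGroup X] [NormedSpace ℝ X]
    [CompleteSpace X] (h1 : ¬ FiniteDimensional ℝ X) (h : NoDense ℝ X) :
    ∃ (Z : Type) (_ : NormedAddCommGroup Z) (_ : NormedSpace 𝕜 Z),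
      CompleteSpace Z ∧ ¬ FiniteDimensional 𝕜 Z ∧ NoDense 𝕜 Z ∧
        ∃ g : X × X →+ Z, Continuous g ∧ Function.Surjective g ∧
          ∀ (r : ℝ) p, g (r • p) = algebraMap ℝ 𝕜 r • g p := by
  let _ := NormedSpace.restrictScalars ℝ 𝕜 (H3.Cx 𝕜 X)
  have hT : IsScalarTower ℝ 𝕜 (H3.Cx 𝕜 X) := RestrictScalars.isScalarTower ℝ 𝕜 (H3.Cx 𝕜 X)
  let p : 𝕜 → H3.Cx 𝕜 X →L[ℝ] X := fun z =>
    { toFun := fun f => H3.Cx.toMap f z
      map_add' := fun _ _ => rfl
      map_smul' := fun r f => H3.Cx.algebraMap_smul_apply r f z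
      cont := H3.Cx.continuous_toMap_apply z }
  let s : (𝕜 →L[ℝ] ℝ) → X →L[ℝ] H3.Cx 𝕜 X := fun φ =>
    { toFun := fun x => H3.Cx.ofMap (φ.smulRight x)
      map_add' := fun _ _ => H3.Cx.ext' fun z => smul_add _ _ _
      map_smul' := fun r x => H3.Cx.ext' fun z =>
        (smul_comm (φ z) r x).trans
          (H3.Cx.algebraMap_smul_apply r (H3.Cx.ofMap (φ.smulRight x)) z).symm
      cont := (ContinuousLinearMap.smulRightL ℝ 𝕜 X φ).continuous }
  have hs : ∀ f, s RCLike.reCLM (p 1 f) + s RCLike.imCLM (p RCLike.I f) = f := by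
    intro f
    refine H3.Cx.ext' fun z => ?_
    change RCLike.re z • H3.Cx.toMap f 1 + RCLike.im z • H3.Cx.toMap f RCLike.I = _
    rw [← map_smul, ← map_smul, ← map_add]
    congr 1
    rw [RCLike.real_smul_eq_coe_mul, RCLike.real_smul_eq_coe_mul, mul_one]
    exact RCLike.re_add_im z
  have hp : Function.Surjective (p 1) := fun x => ⟨s RCLike.reCLM x, by
    change RCLike.re (1 : 𝕜) • x = x
    simp⟩
  have hg : Function.Surjective ((s RCLike.reCLM).coprod (s RCLike.imCLM)) :=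
    fun f => ⟨(p 1 f, p RCLike.I f), hs f⟩
  let im : Submodule 𝕜 (H3.Cx 𝕜 X) → Submodule ℝ X := fun Y =>
    (Y.restrictScalars ℝ).map (p 1 : H3.Cx 𝕜 X →ₗ[ℝ] X)
  by_cases hc : ∀ Y : Submodule 𝕜 (H3.Cx 𝕜 X), InfCodim Y → InfCodim (im Y).topologicalClosure
  · refine ⟨H3.Cx 𝕜 X, _, _, inferInstance, H3.extension_not_finite h1, fun Y hY h2 => ?_,
      ((s RCLike.reCLM).coprod (s RCLike.imCLM)).toAddMonoidHom, ContinuousLinearMap.continuous _,
      hg, map_smul ((s RCLike.reCLM).coprod (s RCLike.imCLM))⟩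
    refine h (fun n => (im (Y n)).topologicalClosure) (fun n => hc _ (hY n))
      ((hp.denseRange.dense_image (p 1).continuous h2).mono ?_)
    rintro _ ⟨f, hf, rfl⟩
    have h3 : (⨆ n, Y n).restrictScalars ℝ ≤ (⨆ n, (im (Y n)).topologicalClosure).comap
        (p 1 : H3.Cx 𝕜 X →ₗ[ℝ] X) := by
      rw [Submodule.restrictScalars_iSup]
      exact iSup_le fun n f hf => Submodule.mem_iSup_of_mem n
        (Submodule.le_topologicalClosure _ ⟨f, hf, rfl⟩)
    exact h3 hf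
  · push Not at hc
    obtain ⟨Y, hY, h2⟩ := hc
    have h3 : FiniteDimensional ℝ (X ⧸ (im Y).topologicalClosure) := by
      by_contra h4
      exact h2 ⟨Submodule.isClosed_topologicalClosure _, h4⟩
    obtain ⟨F, hF, h4⟩ := exists_compl (im Y).topologicalClosure
    obtain ⟨t, ht⟩ := (Submodule.fg_iff_finiteDimensional F).2 hF
    have : FiniteDimensional 𝕜 (Submodule.span 𝕜 (s RCLike.reCLM '' t)) :=
      FiniteDimensional.span_of_finite 𝕜 (t.finite_toSet.image _)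
    set Y₁ := Y ⊔ Submodule.span 𝕜 (s RCLike.reCLM '' t) with hY₁
    have h5 : InfCodim Y₁ := hY.sup _
    have h6 : Dense (im Y₁ : Set X) := by
      rw [Submodule.dense_iff_topologicalClosure_eq_top, eq_top_iff, ← h4]
      refine sup_le (Submodule.topologicalClosure_mono (Submodule.map_mono fun f hf =>
        Submodule.mem_sup_left (S := Y) hf)) ?_
      rw [← ht, Submodule.span_le]
      refine fun x hx => Submodule.le_topologicalClosure _ ⟨s RCLike.reCLM x,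
        Submodule.mem_sup_right (S := Y) (Submodule.subset_span ⟨x, hx, rfl⟩), ?_⟩
      change RCLike.re (1 : 𝕜) • x = x
      simp
    have := h5.1
    let _ := NormedSpace.restrictScalars ℝ 𝕜 (H3.Cx 𝕜 X ⧸ Y₁)
    have hT' : IsScalarTower ℝ 𝕜 (H3.Cx 𝕜 X ⧸ Y₁) :=
      RestrictScalars.isScalarTower ℝ 𝕜 (H3.Cx 𝕜 X ⧸ Y₁)
    let π : H3.Cx 𝕜 X →L[ℝ] H3.Cx 𝕜 X ⧸ Y₁ := Y₁.mkQL.restrictScalars ℝ
    have hπ : Function.Surjective π := Y₁.mkQ_surjective
    have h7 : Function.Surjective (π.comp ((s RCLike.reCLM).coprod (s RCLike.imCLM))) :=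
      hπ.comp hg
    have h8 : Function.Surjective (π.comp (s RCLike.imCLM)) := by
      refine surjective_of_denseRange (fun k => (hasSQ_prod (hasSQ_of_surjective _ h7 k)).elim
        h.not_hasSQ h.not_hasSQ) _ fun q => ?_
      obtain ⟨⟨a, b⟩, rfl⟩ := h7 q
      refine closure_minimal (t := (fun a => π.comp ((s RCLike.reCLM).coprod (s RCLike.imCLM))
        (a, b)) ⁻¹' closure (range (π.comp (s RCLike.imCLM)))) ?_
        (isClosed_closure.preimage (by fun_prop)) (h6 a)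
      rintro _ ⟨f, hf, rfl⟩
      refine subset_closure ⟨b - p RCLike.I f, ?_⟩
      have h9 : π f = 0 := (Submodule.Quotient.mk_eq_zero Y₁).2 hf
      rw [← hs f, map_add] at h9
      simp only [ContinuousLinearMap.comp_apply, ContinuousLinearMap.coprod_apply, map_sub,
        map_add, ContinuousLinearMap.coe_coe]
      rw [eq_neg_of_add_eq_zero_left h9]
      abel
    exact ⟨H3.Cx 𝕜 X ⧸ Y₁, _, _, inferInstance, h5.2, (h.of_surjective _ h8).of_real,
      (π.comp ((s RCLike.reCLM).coprod (s RCLike.imCLM))).toAddMonoidHom,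
      ContinuousLinearMap.continuous _, h7,
      map_smul (π.comp ((s RCLike.reCLM).coprod (s RCLike.imCLM)))⟩

end Vale.Agent.N129X
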