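import Vale.Agent.N129X.Tree
import Vale.Agent.N129.Space

/-! Countably many closed subspaces of infinite codimension do not span a dense subspace. -/

namespace Vale.Agent.N129X

open Set Filter Topology Cardinal Vale.Agent.P129 H448 H50 H471

/-- the functionals which tend to zero along `d` -/
def Nul (d : ℕ → V) : Submodule ℝ (StrongDual ℝ V) where
  carrier := {z | Tendsto (fun i => z (d i)) atTop (𝓝 0)}
  add_mem' ha hb := by simpa using Tendsto.add ha hb
  zero_mem' := by simp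
  smul_mem' c z hz := by simpa using Tendsto.const_mul c hz

theorem mem_Nul {d : ℕ → V} {z : StrongDual ℝ V} :
    z ∈ Nul d ↔ Tendsto (fun i => z (d i)) atTop (𝓝 0) := Iff.rfl

theorem isClosed_Nul {d : ℕ → V} {C : ℝ} (hd : ∀ i, ‖d i‖ ≤ C) :
    IsClosed (Nul d : Set (StrongDual ℝ V)) := by
  refine isClosed_of_closure_subset fun z hz => ?_
  rw [SetLike.mem_coe, mem_Nul, Metric.tendsto_nhds]
  intro ε hε
  have hC : 0 ≤ C := (norm_nonneg _).trans (hd 0)
  obtain ⟨z', hz', h1⟩ := Metric.mem_closure_iff.1 hz (ε / (2 * (C + 1))) (by positivity)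
  filter_upwards [Metric.tendsto_nhds.1 (mem_Nul.1 hz') (ε / 2) (half_pos hε)] with i hi
  rw [dist_zero_right] at hi ⊢
  rw [dist_eq_norm, lt_div_iff₀ (by positivity)] at h1
  have h2 := (z - z').le_opNorm (d i)
  have h3 := norm_add_le ((z - z') (d i)) (z' (d i))
  rw [sub_apply, sub_add_cancel] at h3
  rw [sub_apply] at h2
  have h4 := mul_le_mul_of_nonneg_left (hd i) (norm_nonneg (z - z'))
  nlinarith [norm_nonneg (z - z')]

variable {𝓑 : H168.BranchSystem frame} (G : H168.Generators 𝓑)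

theorem sub_lim_mem {d : ℕ → V} {C : ℝ} (hd : ∀ i, ‖d i‖ ≤ C) (hes : ∀ a, es a ∈ Nul d) (ν : W)
    (hx : ∀ k, G.x ν k ∈ Nul d) : G.y ν - (𝓑.br ν).lim ∈ Nul d := by
  have h1 : G.y ν - (𝓑.br ν).lim = es ν + ∑' k, (G.x ν k - (𝓑.br ν).node k) := by
    rw [G.y_eq]
    change es ν + _ + _ - _ = _
    abel
  rw [h1]
  refine Submodule.add_mem _ (hes ν) ((isClosed_Nul hd).mem_of_tendsto
    (H168.summable_sub_node 𝓑 ν _ (G.x_sub_node ν)).hasSum.tendsto_sum_nat
    (Eventually.of_forall fun K => Submodule.sum_mem _ fun k _ => Submodule.sub_mem _ (hx k) ?_))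
  exact Submodule.sum_mem _ fun a _ => Submodule.smul_mem _ _ (hes a)

theorem exists_ann (hSQ : ¬ H189.HasSeparableQuotient ℝ (XT G)) {Y : Submodule ℝ (XT G)}
    (hY1 : IsClosed (Y : Set (XT G))) (hY2 : ¬ FiniteDimensional ℝ (XT G ⧸ Y)) (a : W) :
    ∃ (v : V) (b : W), ‖v‖ = 3 / 2 ∧ a < b ∧ frame.P a v = 0 ∧ frame.P b v = v ∧
      ∀ y ∈ Y, incX G y v = 0 := by
  have h1 : ¬ Dense ((Y ⊔ Submodule.span ℝ (yX G '' Iio a) : Submodule ℝ (XT G)) :
      Set (XT G)) := by
    intro h
    refine hSQ ⟨Y, hY1, ?_, hY2⟩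
    have h2 := ((((countable_Iio a).image (yX G)).image Y.mkQ).isSeparable.span (R := ℝ)).closure
    rw [← TopologicalSpace.isSeparable_univ_iff]
    refine h2.mono fun q _ => closure_mono ?_
      ((Y.mkQ_surjective.denseRange.dense_image Y.mkQL.continuous h) q)
    rintro _ ⟨x, hx, rfl⟩
    obtain ⟨y, hy, z, hz, rfl⟩ := Submodule.mem_sup.1 hx
    rw [map_add, show Y.mkQ y = 0 from (Submodule.Quotient.mk_eq_zero Y).2 hy, zero_add,
      ← Submodule.map_span]
    exact Submodule.mem_map_of_mem hz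
  obtain ⟨f, hf1, hf2⟩ := exists_norm_one_vanishing _ h1
  obtain ⟨v, hv⟩ := N129.exists_ev G f
  have h2 : v ≠ 0 := by
    rintro rfl
    have : f = 0 := ContinuousLinearMap.ext fun x => by rw [hv, map_zero]; rfl
    rw [this, norm_zero] at hf1
    exact zero_ne_one hf1
  have h3 : frame.P a v = 0 := by
    refine G.unique_lt (a := a) (by rw [frame.P_P, min_self]) (map_zero _) fun z hz => ?_
    rw [G.span_P hz, map_zero]
    have h4 : Submodule.span ℝ (G.y '' Iio a) =
        (Submodule.span ℝ (yX G '' Iio a)).map (incX G) := by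
      rw [Submodule.map_span, image_image]
      rfl
    rw [h4] at hz
    obtain ⟨x, hx, rfl⟩ := hz
    rw [← hv]
    exact hf2 x (Submodule.mem_sup_right hx)
  obtain ⟨b, hb⟩ := H223.frame_exists_support frame exists_gt_of_countable fun _ => v
  obtain ⟨c, hc⟩ := exists_gt (max a b)
  have h4 := norm_pos_iff.2 h2
  refine ⟨(3 / 2 / ‖v‖) • v, c, ?_, (le_max_left _ _).trans_lt hc, ?_, ?_, fun y hy => ?_⟩
  · rw [norm_smul, Real.norm_of_nonneg (by positivity)]
    field_simp
  · rw [map_smul, h3, smul_zero]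
  · rw [map_smul]
    congr 1
    conv_lhs => rw [← hb 0]
    rw [frame.P_P, min_eq_right ((le_max_right _ _).trans hc.le), hb 0]
  · rw [map_smul, ← hv, hf2 y (Submodule.mem_sup_left hy), smul_zero]

/-- block sequences which almost annihilate the given subspaces -/
theorem exists_blocks (hSQ : ¬ H189.HasSeparableQuotient ℝ (XT G)) {Y : ℕ → Submodule ℝ (XT G)}
    (hY : ∀ n, IsClosed (Y n : Set (XT G)) ∧ ¬ FiniteDimensional ℝ (XT G ⧸ Y n)) :
    ∃ (l : W) (h : ℕ → ℕ → Vec), (∀ n, IsBlock l (h n)) ∧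
      ∀ n i, ∀ u ∈ Submodule.span ℝ (h n '' {k | i ≤ k}), ∀ y ∈ Y n,
        |incX G y (inc u)| ≤ ‖y‖ * nrm u * (1 / 2) ^ i := by
  classical
  choose v b hv hab hva hvb hvY using fun (k : ℕ) (a : W) =>
    exists_ann G hSQ (hY (Nat.unpair k).1).1 (hY (Nat.unpair k).1).2 a
  let α : ℕ → W := fun n => Nat.rec default (fun k a => b k a) n
  have hα : ∀ k, α (k + 1) = b k (α k) := fun k => rfl
  have hmono : StrictMono α := strictMono_nat_of_lt_succ fun k => hab k (α k)
  choose r hr hr1 hr2 hr3 using fun k => H223.frame_dense_interval frame (α k) (α (k + 1))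
    (hab k (α k)) (v k (α k)) (hva k _) (hvb k _) (1 / 4 * (1 / 2) ^ k) (by positivity)
  obtain ⟨l, hl1, hl2⟩ := wellFounded_lt.has_min {c : W | ∀ k, α k < c} (by
    obtain ⟨c, hc⟩ := exists_gt_of_countable (range α) (countable_range α)
    exact ⟨c, fun k => hc _ ⟨k, rfl⟩⟩)
  have hpow : ∀ k : ℕ, (1 / 2 : ℝ) ^ k ≤ 1 := fun k => pow_le_one₀ (by norm_num) (by norm_num)
  have hb : H223.IsBlock (H223.projSystem frame exists_gt_of_countable) l α r := by
    refine ⟨hmono, hl1, fun c hc => ?_, hr1, hr2, fun k => ?_, fun k => ?_⟩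
    · by_contra h
      push Not at h
      exact hl2 c h hc
    · have h2 := norm_sub_norm_le (v k (α k)) (r k)
      rw [norm_sub_rev, hv] at h2
      linarith [hr3 k, hpow k]
    · have h2 := norm_sub_norm_le (r k) (v k (α k))
      rw [hv] at h2
      linarith [hr3 k, hpow k]
  choose x hx using fun k => exists_inc (hr k)
  have hlow : ∀ k, ∀ a ∈ (x k).support, α k ≤ a := by
    intro k a ha
    have h1 := hr1 k
    rw [← hx, frame_P_inc, ← map_zero inc] at h1
    by_contra h3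
    have h4 : res (Set.Iio (α k)) (x k) a = x k a := by
      rw [res_apply, if_pos (Set.mem_Iio.2 (not_le.1 h3))]
    rw [inc_injective h1] at h4
    exact (Finsupp.mem_support_iff.1 ha) h4.symm
  have hhigh : ∀ k, ∀ a ∈ (x k).support, a < α (k + 1) := by
    intro k a ha
    have h1 := hr2 k
    rw [← hx, frame_P_inc] at h1
    by_contra h3
    have h4 : res (Set.Iio (α (k + 1))) (x k) a = 0 := by
      rw [res_apply, if_neg (fun h5 => h3 (Set.mem_Iio.1 h5))]
    rw [inc_injective h1] at h4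
    exact (Finsupp.mem_support_iff.1 ha) h4
  refine ⟨l, fun n j => x (Nat.pair n j), fun n => ⟨fun k hk => ?_, fun j k hjk a ha c hc => ?_,
    fun k a ha => (hhigh _ a ha).trans (hb.lt (Nat.pair n k + 1)), fun a ha => ?_⟩, fun n i u hu y hy => ?_⟩
  · have h1 := hb.one_le (Nat.pair n k)
    rw [← hx, show x (Nat.pair n k) = 0 from hk, map_zero, norm_zero] at h1
    exact absurd h1 (by norm_num)
  · exact (hhigh _ a ha).trans_le
      ((hmono.monotone (Nat.pair_lt_pair_right n hjk)).trans (hlow _ c hc))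
  · obtain ⟨k, hk⟩ := hb.cofinal a ha
    refine ⟨k + 1, fun c hc => hk.trans_lt ((hmono ?_).trans_le (hlow _ c hc))⟩
    exact Nat.right_le_pair n (k + 1)
  · have h1 : inc u ∈ Submodule.span ℝ (r '' {k | i ≤ k ∧ (Nat.unpair k).1 = n}) := by
      have h2 := Submodule.mem_map_of_mem (f := inc) hu
      rw [Submodule.map_span, image_image] at h2
      refine Submodule.span_mono ?_ h2
      rintro _ ⟨j, hj, rfl⟩
      exact ⟨Nat.pair n j, ⟨le_trans hj (Nat.right_le_pair n j), by simp⟩, (hx _).symm⟩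
    obtain ⟨c, hc, hcu⟩ := (Finsupp.mem_span_image_iff_linearCombination ℝ).1 h1
    have hcI : ∀ k ∈ c.support, i ≤ k ∧ (Nat.unpair k).1 = n := fun k hk =>
      (Finsupp.mem_supported ℝ c).1 hc hk
    rw [Finsupp.linearCombination_apply] at hcu
    have h3 : ∀ k ∈ c.support, |c k * incX G y (r k)| ≤ ‖y‖ * nrm u / 2 * (1 / 2) ^ k := by
      intro k hk
      have h4 := H223.abs_coeff_le _ hb c k
      rw [hcu, norm_inc] at h4
      have h5 := (incX G y).le_opNorm (r k - v k (α k))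
      rw [map_sub, hvY k _ y (by rw [(hcI k hk).2]; exact hy), sub_zero, norm_incX,
        Real.norm_eq_abs] at h5
      have h6 := h5.trans (mul_le_mul_of_nonneg_left (hr3 k).le (norm_nonneg y))
      rw [abs_mul]
      refine (mul_le_mul h4 h6 (abs_nonneg _) ((abs_nonneg _).trans h4)).trans (le_of_eq ?_)
      ring
    rw [← hcu, Finsupp.sum, map_sum]
    simp only [map_smul, smul_eq_mul]
    refine (Finset.abs_sum_le_sum_abs _ _).trans ((Finset.sum_le_sum h3).trans ?_)
    rw [← Finset.mul_sum]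
    have h7 := H223.sum_pow_le c.support i fun k hk => (hcI k hk).1
    have h8 : 0 ≤ ‖y‖ * nrm u / 2 := by
      have := nrm_nonneg u
      positivity
    refine (mul_le_mul_of_nonneg_left h7 h8).trans (le_of_eq ?_)
    ring

theorem not_dense {𝓕 : Family} (h𝓕 : HitsAll 𝓕) (G : H168.Generators 𝓕.system)
    (hG : ∀ (μ : W) (k : ℕ) (l : W), (∀ a ∈ (𝓕.system.br μ).supp k, a < l) →
      G.x μ k ∈ Submodule.span ℝ (G.y '' Set.Iio l))
    (hSQ : ¬ H189.HasSeparableQuotient ℝ (XT G)) (Y : ℕ → Submodule ℝ (XT G))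
    (hY : ∀ n, IsClosed (Y n : Set (XT G)) ∧ ¬ FiniteDimensional ℝ (XT G ⧸ Y n)) :
    ¬ Dense ((⨆ n, Y n : Submodule ℝ (XT G)) : Set (XT G)) := by
  obtain ⟨l, h, hb, hsmall⟩ := exists_blocks G hSQ hY
  obtain ⟨μ, -, -, Φ, hΦ, hcof, hhit⟩ := h𝓕 l h hb l
  choose j hj u hu huC hpr hsm using hhit
  have hI := 𝓕.inf μ Φ hΦ
  have hbey : ∀ n a, a < l → ∀ᶠ i in atTop, ∀ c ∈ (u n i).support, a < c := by
    intro n a ha
    obtain ⟨k₀, hk₀⟩ := exists_tail (hb n) {a} (by simpa using ha)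
    filter_upwards [eventually_ge_atTop k₀] with i hi c hc
    obtain ⟨k, hk, hck⟩ := mem_support_of_span (hu n i) c hc
    exact hk₀ k (hi.trans hk) a (Finset.mem_singleton_self a) c hck
  have hfar : ∀ n a, ∀ᶠ i in atTop, a ∉ (u n i).support := by
    intro n a
    by_cases ha : a < l
    · filter_upwards [hbey n a ha] with i hi hc
      exact lt_irrefl _ (hi a hc)
    · refine Eventually.of_forall fun i hc => ha ?_
      obtain ⟨k, -, hck⟩ := mem_support_of_span (hu n i) a hc
      exact (hb n).lt k a hck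
  have hes : ∀ n a, es a ∈ Nul fun i => inc (u n i) := by
    intro n a
    refine tendsto_const_nhds.congr' ?_
    filter_upwards [hfar n a] with i hi
    rw [es_inc, Finsupp.notMem_support_iff.1 hi]
  have hn : ∀ n i, ‖inc (u n i)‖ ≤ 3072 := fun n i => by rw [norm_inc]; exact huC n i
  have hsub : ∀ n (z : StrongDual ℝ V), (z ∈ Nul fun i => inc (u n i)) →
      (z ∈ Nul fun i => inc (u 0 i)) → z ∈ Nul fun i => inc (u n i) - inc (u 0 i) := by
    intro n z h1 h2
    simpa [mem_Nul] using (mem_Nul.1 h1).sub (mem_Nul.1 h2)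
  have hlim : ∀ ν Ψ (hΨ : 𝓕.B ν = some Ψ) x, (𝓕.system.br ν).lim (inc x) = pr (br Ψ) x := by
    intro ν Ψ hΨ x
    rw [show 𝓕.system.br ν = 𝓕.br ν from rfl, 𝓕.br_some hΨ]
    exact (𝓕.inf ν Ψ hΨ).fnl_tl_inc 0 x
  have hd : ∀ n i, ‖inc (u n i) - inc (u 0 i)‖ ≤ 3072 + 3072 := fun n i =>
    (norm_sub_le _ _).trans (add_le_add (hn n i) (hn 0 i))
  have hall : ∀ n ν, G.y ν ∈ Nul fun i => inc (u n i) - inc (u 0 i) := by
    intro n ν
    induction ν using WellFoundedLT.induction with
    | ind ν ih =>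
      have h1 := sub_lim_mem G (hd n) (fun a => hsub n _ (hes n a) (hes 0 a)) ν fun k =>
        Submodule.span_le.2 (by rintro _ ⟨a, ha, rfl⟩; exact ih a ha) (G.x_mem ν k)
      rw [← sub_add_cancel (G.y ν) (𝓕.system.br ν).lim]
      refine Submodule.add_mem _ h1 ?_
      by_cases hν : ν = μ
      · subst hν
        rw [mem_Nul]
        simp only [map_sub, hlim ν Φ hΦ, hpr, sub_self]
        exact tendsto_const_nhds
      by_cases hex : ∃ Ψ, 𝓕.B ν = some Ψ
      · obtain ⟨Ψ, hΨ⟩ := hex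
        obtain ⟨K₀, hK₀⟩ := AlmostDisj.exists_bound hI (𝓕.disj μ ν Φ Ψ (Ne.symm hν) hΦ hΨ)
        have h2 : ∀ q, (𝓕.system.br ν).lim ∈ Nul fun i => inc (u q i) := by
          intro q
          rw [mem_Nul]
          simp only [hlim ν Ψ hΨ]
          refine tendsto_br (𝓕.inf ν Ψ hΨ) (hsm q) ?_ ?_ (hfar q)
          · exact tendsto_atTop_mono (fun i => (hj q i).trans (hI.lt_w _).le) tendsto_id
          · filter_upwards [eventually_ge_atTop K₀] with i hi k
            exact (hK₀ _ (hi.trans (hj q i)) k).symm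
        exact hsub n _ (h2 n) (h2 0)
      · rw [show 𝓕.system.br ν = 𝓕.br ν from rfl, 𝓕.br_none hex]
        exact Submodule.zero_mem _
  have hlow : ∀ ν < l, G.y ν ∈ Nul fun i => inc (u 0 i) := by
    intro ν hν
    obtain ⟨c, hc1, hc2⟩ := (isLim_of_block (hb 0)).2 ν hν
    refine tendsto_const_nhds.congr' ?_
    filter_upwards [hbey 0 c hc2] with i hi
    have h1 : res (Iio c) (u 0 i) = 0 := by
      ext a
      rw [res_apply]
      split_ifs with ha
      · by_contra h2
        exact lt_asymm ha (hi a (Finsupp.mem_support_iff.2 h2))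
      · rfl
    rw [← G.y_P hc1, frame_P_inc, h1, map_zero, map_zero]
  have hμ := sub_lim_mem G (hn 0) (hes 0) μ fun k =>
    Submodule.span_le.2 (by rintro _ ⟨a, ha, rfl⟩; exact hlow a ha) (hG μ k l fun a ha => by
      rw [show 𝓕.system.br μ = 𝓕.br μ from rfl, 𝓕.br_some hΦ] at ha
      exact hcof.1 k a ha)
  intro hdense
  have hcont : Continuous (incX G) := AddMonoidHomClass.continuous_of_bound (incX G) 1 fun x => by
    rw [norm_incX, one_mul]
  have h1 : (⨆ n, Y n) ≤ (Nul fun i => inc (u 0 i)).comap (incX G) := by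
    refine iSup_le fun n y hy => ?_
    have h2 : incX G y ∈ Nul fun i => inc (u n i) - inc (u 0 i) :=
      closure_minimal (Submodule.span_le.2 (by rintro _ ⟨a, rfl⟩; exact hall n a))
        (isClosed_Nul (hd n)) ((mem_X_iff G _).1 (incX_mem G y))
    have h3 : incX G y ∈ Nul fun i => inc (u n i) := by
      have h4 := (tendsto_pow_atTop_nhds_zero_of_lt_one (r := (1 / 2 : ℝ)) (by norm_num)
        (by norm_num)).const_mul (‖y‖ * 3072)
      rw [mul_zero] at h4
      refine squeeze_zero_norm (fun i => (hsmall n i _ (hu n i) y hy).trans ?_) h4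
      have := huC n i
      gcongr
    simpa [mem_Nul] using (mem_Nul.1 h3).sub (mem_Nul.1 h2)
  have h2 : incX G (yX G μ) ∈ Nul fun i => inc (u 0 i) :=
    closure_minimal h1 ((isClosed_Nul (hn 0)).preimage hcont) (hdense (yX G μ))
  have h3 := mem_Nul.1 (Submodule.sub_mem _ h2 hμ)
  rw [incX_yX, sub_sub_cancel] at h3
  simp only [hlim μ Φ hΦ, hpr] at h3
  exact one_ne_zero (tendsto_nhds_unique tendsto_const_nhds h3)

end Vale.Agent.N129X
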