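import Vale.Agent.P129.H200.Chain
import Vale.Agent.P129.H448.Branches
import Vale.Agent.P129.H560.ZSeqEx

/-! Exact pairs on which all segments with other weights are small. -/

namespace Vale.Agent.N129X

open Finset Filter Topology Vale.Agent.P129 H448 H487

/-- the error bound -/
noncomputable def err (v w : ℕ) : ℝ := 24576 * (m (ell v) : ℝ)⁻¹ + 6 * ((m (ell w) : ℝ) / ell w)

/-- segments with weight indices `≥ v` and different from `w` are small on `u` -/
def Sm (w : ℕ) (u : Vec) : Prop :=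
  ∀ (v : ℕ) (s : Seg), s.Ok K → (∀ w' ∈ s.idx, w' ≠ w ∧ v ≤ w') → |ap s.fn u| ≤ err v w

theorem four_sq_le (w : ℕ) : (2 * ell w) ^ 2 ≤ ell (w + 1) := by
  have h : ∀ e, 10 ≤ e → 4 * e ^ 2 ≤ 2 ^ e := by
    intro e he
    induction e, he using Nat.le_induction with
    | base => norm_num
    | succ e he ih =>
      rw [pow_succ 2 e]
      nlinarith
  have := h (ell w) (le_trans (by norm_num) (thousand_le_ell w))
  rw [ell_succ, mul_pow]
  omega

variable {x : ℕ → Vec} {D L : ℕ → ℕ} {η : ℕ → ℝ}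

theorem seg_est (h : RIS x D L η) {w v : ℕ} {A : Finset ℕ} (hA : A.card = ell w) {s : Seg}
    (hs : s.Ok K) (hw : ∀ w' ∈ s.idx, w' ≠ w ∧ v ≤ w') :
    |ap s.fn (∑ i ∈ A, x i)| ≤ 64 * GG (ell w) * (m (ell v) : ℝ)⁻¹ + 3 := by
  classical
  obtain ⟨t, ht⟩ := B.Ok.exists_stage hs
  set P := s.nodes with hP
  set om : ℕ → ℕ := fun k => (s.Φ k).w with hom
  set nd : ℕ → Fn := fun k => res s.I (s.Φ k).φ with hnd'
  have hinj : Set.InjOn om P := fun k hk k' hk' he =>
    hs.sp.cod.w_inj (mem_nodes.1 hk).1 (mem_nodes.1 hk').1 he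
  have hnd : ∀ k ∈ P, nd k ∈ Wtd (Kst t) (ell (om k)) := fun k hk =>
    wtd_res hs.hI (ht.sp.wtd k (mem_nodes.1 hk).1)
  have hwP : ∀ k ∈ P, om k ≠ w ∧ v ≤ om k := fun k hk => hw _ (B.w_mem_idx hk)
  have hsum : ∀ (Q : Finset ℕ) (c : ℕ), Q ⊆ P → (∀ k ∈ Q, c ≤ om k) →
      ∑ k ∈ Q, ((m (ell (om k)) : ℕ) : ℝ)⁻¹ ≤ 2 * ((m (ell c) : ℕ) : ℝ)⁻¹ := fun Q c hQ hc =>
    sum_inv_le' (M := fun w => ((m (ell w) : ℕ) : ℝ)) (fun w => m_posR _) geo_ell Q om
      (hinj.mono hQ) c hc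
  set low : ℕ → Finset ℕ := fun i => P.filter fun p => ell (om p) ≤ D i with hlow
  set win : ℕ → Finset ℕ := fun i =>
    (P.filter fun p => ¬ ell (om p) ≤ D i).filter fun p => ell (om p) < L i with hwin
  set high : ℕ → Finset ℕ := fun i =>
    (P.filter fun p => ¬ ell (om p) ≤ D i).filter fun p => ¬ ell (om p) < L i with hhigh
  have hdec : ∀ i, ap s.fn (x i) = ∑ p ∈ low i, ap (nd p) (x i) +
      (∑ p ∈ win i, ap (nd p) (x i) + ∑ p ∈ high i, ap (nd p) (x i)) := by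
    intro i
    rw [ap_fn, hwin, hhigh]
    simp only
    rw [sum_filter_add_sum_filter_not, hlow]
    simp only
    rw [sum_filter_add_sum_filter_not]
  have ewin : ∀ i, |∑ p ∈ win i, ap (nd p) (x i)| ≤ (1 / 2 : ℝ) ^ (i + 0) := by
    intro i
    set J' : Set ℕ := {w | D i < ell w ∧ ell w < L i} with hJ'
    have hJ'c : J'.OrdConnected := by
      constructor
      rintro a ⟨ha1, ha2⟩ b ⟨hb1, hb2⟩ z ⟨h1, h2⟩
      exact ⟨lt_of_lt_of_le ha1 (H487.ell_strictMono.monotone h1),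
        lt_of_le_of_lt (H487.ell_strictMono.monotone h2) hb2⟩
    set s' : Seg := { s with J := s.J ∩ J' } with hs'
    have hok : s'.Ok K := ⟨hs.sp, hs.hJ.inter hJ'c, hs.hI⟩
    have e : ∑ p ∈ win i, ap (nd p) (x i) = ap s'.fn (x i) := by
      have e1 : win i = s'.nodes := by
        ext k
        simp only [hwin, hP, mem_filter, mem_nodes, hs', Set.mem_inter_iff, hJ',
          Set.mem_ofPred_eq, hom]
        constructor
        · rintro ⟨⟨⟨h2, h3⟩, h4⟩, h5⟩
          exact ⟨h2, h3, by omega, h5⟩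
        · rintro ⟨h2, h3, h4, h5⟩
          exact ⟨⟨⟨h2, h3⟩, by omega⟩, h5⟩
      rw [e1, ap_fn]
    rw [e]
    cases i with
    | zero =>
      simpa using (H487.abs_ap_le_nrm (B.fn_mem_K hok) (x 0)).trans (h.h1 0)
    | succ j =>
      have h1 := h.h5 (j + 1) s' hok fun w hw => by
        obtain ⟨k, -, hk, rfl⟩ := B.mem_idx.1 hw
        exact hk.2
      have h2 := h.h6 j
      have h3 : (1 : ℝ) ≤ L j := by
        have := h.hDL j
        exact_mod_cast (by omega : 1 ≤ L j)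
      have h4 := h.heta (j + 1)
      have h5 : (1 / 2 : ℝ) ^ (j + 3) ≤ (1 / 2) ^ (j + 1 + 0) :=
        pow_le_pow_of_le_one (by norm_num) (by norm_num) (by omega)
      nlinarith
  have ehigh : ∀ i, |∑ p ∈ high i, ap (nd p) (x i)| ≤ (1 / 2 : ℝ) ^ (i + 3) := by
    intro i
    have hsub : ∀ p ∈ high i, p ∈ P ∧ L i ≤ ell (om p) := by
      intro p hp
      rw [hhigh, mem_filter, mem_filter] at hp
      exact ⟨hp.1.1, not_lt.1 hp.2⟩
    rcases (high i).eq_empty_or_nonempty with he | hne'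
    · rw [he, sum_empty, abs_zero]; positivity
    · obtain ⟨q, hq, hqmin⟩ := (high i).exists_min_image om hne'
      have h1 : ∀ p ∈ high i, |ap (nd p) (x i)| ≤ (m (ell (om p)) : ℝ)⁻¹ * l1 (x i) :=
        fun p hp => abs_ap_wtd_le (hnd p (hsub p hp).1) _
      refine (abs_sum_le_sum_abs _ _).trans ((sum_le_sum h1).trans ?_)
      rw [← sum_mul]
      have h2 := hsum (high i) (om q) (fun p hp => (hsub p hp).1) hqmin
      have h3 : ((m (ell (om q)) : ℕ) : ℝ)⁻¹ ≤ ((m (L i) : ℕ) : ℝ)⁻¹ :=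
        inv_anti₀ (m_posR _) (by exact_mod_cast H487.m_mono (hsub q hq).2)
      have h4 := h.h3 i
      rw [div_eq_inv_mul] at h4
      calc (∑ p ∈ high i, (m (ell (om p)) : ℝ)⁻¹) * l1 (x i)
          ≤ (2 * (m (L i) : ℝ)⁻¹) * l1 (x i) :=
            mul_le_mul_of_nonneg_right (h2.trans (by linarith)) (H487.l1_nonneg _)
        _ = 2 * ((m (L i) : ℝ)⁻¹ * l1 (x i)) := by ring
        _ ≤ 2 * (1 / 2) ^ (i + 4) := by linarith
        _ = (1 / 2) ^ (i + 3) := by rw [pow_succ (1 / 2 : ℝ) (i + 3)]; ring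
  have elow : |∑ i ∈ A, ∑ p ∈ low i, ap (nd p) (x i)| ≤
      64 * GG (ell w) * (m (ell v) : ℝ)⁻¹ + 1 / 4 := by
    have hswap : ∑ i ∈ A, ∑ p ∈ low i, ap (nd p) (x i) =
        ∑ p ∈ P, ap (nd p) (∑ i ∈ A.filter fun i => ell (om p) ≤ D i, x i) := by
      have e1 : ∀ i ∈ A, ∑ p ∈ low i, ap (nd p) (x i) =
          ∑ p ∈ P, if ell (om p) ≤ D i then ap (nd p) (x i) else 0 :=
        fun i _ => by rw [hlow, sum_filter]
      rw [sum_congr rfl e1, sum_comm]
      refine sum_congr rfl fun p _ => ?_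
      rw [← sum_filter, ap_sum_right]
    rw [hswap]
    have hest : ∀ p ∈ P, _ := fun p hp => node_est h (s := t)
      (fun φ hφ => h.upper φ (H487.Kst_subset_K t hφ)) (one_le_ell (om p)) (hnd p hp)
      (A.filter fun i => ell (om p) ≤ D i) (fun i hi => (mem_filter.1 hi).2) (t := ell w)
      ((card_filter_le _ _).trans hA.le)
    refine (abs_sum_le_sum_abs _ _).trans ?_
    rw [← sum_filter_add_sum_filter_not P (fun p => om p < w)]
    have hG : 0 ≤ GG (ell w) := GG_nonneg _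
    refine add_le_add ?_ ?_
    · have h1 : ∀ p ∈ P.filter (fun p => om p < w),
          |ap (nd p) (∑ i ∈ A.filter fun i => ell (om p) ≤ D i, x i)| ≤
            32 * GG (ell w) * (m (ell (om p)) : ℝ)⁻¹ := by
        intro p hp
        obtain ⟨hp1, hp2⟩ := mem_filter.1 hp
        have h2 := (hest p hp1).2.2 ((four_sq_le _).trans (H487.ell_strictMono.monotone hp2))
        rw [← div_eq_mul_inv, le_div_iff₀ (m_posR _)]
        linarith
      refine (sum_le_sum h1).trans ?_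
      rw [← mul_sum]
      have h2 := hsum (P.filter fun p => om p < w) v (filter_subset _ _)
        fun k hk => (hwP k (mem_filter.1 hk).1).2
      nlinarith
    · have h1 : ∀ p ∈ P.filter (fun p => ¬ om p < w),
          |ap (nd p) (∑ i ∈ A.filter fun i => ell (om p) ≤ D i, x i)| ≤
            8 * (ell w : ℝ) * (m (ell (om p)) : ℝ)⁻¹ := by
        intro p hp
        have h2 := (hest p (mem_filter.1 hp).1).1
        rw [← div_eq_mul_inv, le_div_iff₀ (m_posR _)]
        linarith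
      refine (sum_le_sum h1).trans ?_
      rw [← mul_sum]
      have h2 := hsum (P.filter fun p => ¬ om p < w) (w + 1) (filter_subset _ _) fun k hk => by
        have h3 := (hwP k (mem_filter.1 hk).1).1
        have h4 := (mem_filter.1 hk).2
        omega
      have h3 : ((m (ell (w + 1)) : ℕ) : ℝ) = 64 * (1 + ell w) := by
        rw [H448.m_ell_succ]; push_cast; ring
      rw [h3] at h2
      have h4 : (0 : ℝ) ≤ ell w := by positivity
      refine (mul_le_mul_of_nonneg_left h2 (by positivity)).trans ?_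
      rw [← div_eq_mul_inv, ← mul_div_assoc, div_le_iff₀ (by positivity)]
      linarith
  have e1 : ap s.fn (∑ i ∈ A, x i) = ∑ i ∈ A, ∑ p ∈ low i, ap (nd p) (x i) +
      (∑ i ∈ A, ∑ p ∈ win i, ap (nd p) (x i) + ∑ i ∈ A, ∑ p ∈ high i, ap (nd p) (x i)) := by
    rw [ap_sum_right, sum_congr rfl fun i _ => hdec i, sum_add_distrib, sum_add_distrib]
  have e2 : |∑ i ∈ A, ∑ p ∈ win i, ap (nd p) (x i)| ≤ 2 := by
    refine (abs_sum_le_sum_abs _ _).trans ((sum_le_sum fun i _ => ewin i).trans ?_)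
    refine (sum_half_pow_le A 0).trans ?_
    norm_num
  have e3 : |∑ i ∈ A, ∑ p ∈ high i, ap (nd p) (x i)| ≤ 1 / 4 := by
    refine (abs_sum_le_sum_abs _ _).trans ((sum_le_sum fun i _ => ehigh i).trans ?_)
    refine (sum_half_pow_le A 3).trans ?_
    norm_num
  rw [e1]
  refine (abs_add_le _ _).trans ?_
  have := abs_add_le (∑ i ∈ A, ∑ p ∈ win i, ap (nd p) (x i))
    (∑ i ∈ A, ∑ p ∈ high i, ap (nd p) (x i))
  linarith

/-- Exact pairs of every weight, arbitrarily far in `h`, on which the other weights are small. -/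
def Supply (h : ℕ → Vec) (C : ℝ) : Prop :=
  ∀ w k₀ : ℕ, ∃ (u : Vec) (φ : Fn), u ∈ Submodule.span ℝ (h '' {k | k₀ ≤ k}) ∧ nrm u ≤ C ∧
    φ ∈ Wtd K (ell w) ∧ ap φ u = 1 ∧ (φ.support : Set W) ⊆ ran u.support ∧ Sm w u

theorem Supply.pair {h : ℕ → Vec} {C : ℝ} (hS : Supply h C) : H50.PairSupply h C := by
  intro w k₀
  obtain ⟨u, φ, h1, h2, h3, h4, h5, -⟩ := hS w k₀
  exact ⟨u, φ, h1, h2, h3, h4, h5⟩

theorem supply {l : W} {h : ℕ → Vec} (hb : IsBlock l h) : Supply h 3072 := by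
  classical
  obtain ⟨z, a, b, hz⟩ := H560.exists_zseq hb
  have hT := H200.lemT hz
  intro w k₀
  obtain ⟨x, D, L, η, hR, hx1, hx2⟩ := exists_RIS hb hT k₀
  choose φ hφK hφs hφx using fun i => exists_half (hx1 i)
  set N := ell w with hN
  have hN1 : 1 ≤ N := one_le_ell w
  have hN0 : (0 : ℝ) < N := by exact_mod_cast hN1
  have hm0 : (0 : ℝ) < m N := m_posR N
  have hsucc : ∀ i j, i < j → SLt (φ i).support (φ j).support := by
    intro i j hij a ha b hb'
    exact ran_ilt (hR.hs i j hij) a (hφs i ha) b (hφs j hb')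
  have hne : ∀ i j, i ≠ j → ap (φ i) (x j) = 0 := by
    intro i j hij
    refine ap_eq_zero fun a ha hax => ?_
    have h1 := hφs i ha
    have h2 : a ∈ ran (x j).support := ⟨a, hax, a, hax, le_rfl, le_rfl⟩
    rcases lt_or_gt_of_ne hij with h | h
    · exact lt_irrefl _ (ran_ilt (hR.hs i j h) a h1 a h2)
    · exact lt_irrefl _ (ran_ilt (hR.hs j i h) a h2 a h1)
  set SF : Fn := ∑ i ∈ range N, φ i with hSF
  set X : Vec := ∑ i ∈ range N, x i with hX
  set c : ℝ := (∑ i ∈ range N, ap (φ i) (x i)) / N with hc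
  have hdiag : ap SF X = N * c := by
    have : ap SF X = ∑ i ∈ range N, ap (φ i) (x i) := by
      rw [hSF, ap_sum_left]
      refine sum_congr rfl fun i hi => ?_
      rw [hX, ap_sum_right]
      exact sum_eq_single_of_mem i hi fun j _ hj => hne i j (Ne.symm hj)
    rw [this, hc]
    field_simp
  have hchalf : 1 / 2 ≤ c := by
    rw [hc, le_div_iff₀ hN0]
    calc 1 / 2 * (N : ℝ) = ∑ _i ∈ range N, (1 / 2 : ℝ) := by
          rw [sum_const, card_range, nsmul_eq_mul]; ring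
      _ ≤ ∑ i ∈ range N, ap (φ i) (x i) := sum_le_sum fun i _ => (hφx i).le
  have hc0 : 0 < c := by linarith
  have h2 : c⁻¹ ≤ 2 := by
    rw [inv_le_comm₀ hc0 (by norm_num)]; linarith
  have e1 : ∀ (r : ℝ) (y : Vec) (ψ : Fn), ap ψ (r • y) = r * ap ψ y := fun r y ψ =>
    map_smul (pr (toR ψ)) r y
  refine ⟨c⁻¹ • (((m N : ℝ) / N) • X), ((m N : ℚ)⁻¹) • SF, ?_, ?_, ?_, ?_, ?_, ?_⟩
  · refine Submodule.smul_mem _ _ (Submodule.smul_mem _ _ (Submodule.sum_mem _ fun i _ => hx2 i))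
  · rw [nrm_smul_eq, abs_of_pos (inv_pos.2 hc0)]
    have h1 : nrm (((m N : ℝ) / N) • X) ≤ 1536 := hR.nrm_avg_le hN1 (card_range N)
    have h3 := H487.nrm_nonneg (((m N : ℝ) / N) • X)
    calc c⁻¹ * nrm (((m N : ℝ) / N) • X) ≤ 2 * 1536 :=
          mul_le_mul h2 h1 h3 (by norm_num)
      _ = 3072 := by norm_num
  · exact ⟨N, φ, le_rfl, fun i _ => hφK i, fun i j hij _ => hsucc i j hij, rfl⟩
  · rw [e1, e1, ap_smul_left, hdiag]
    push_cast
    field_simp
  · have hsupp : ∀ i ∈ range N, (x i).support ⊆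
        (c⁻¹ • (((m N : ℝ) / N) • X)).support := by
      intro i hi a ha
      rw [Finsupp.mem_support_iff, Finsupp.smul_apply, Finsupp.smul_apply, smul_eq_mul,
        smul_eq_mul]
      have hXa : X a = x i a := by
        rw [hX, Finsupp.finsetSum_apply]
        refine sum_eq_single_of_mem i hi fun j _ hj => ?_
        by_contra hcon
        have hja := Finsupp.mem_support_iff.2 hcon
        rcases lt_or_gt_of_ne hj with h | h
        · exact lt_irrefl _ (hR.hs j i h a hja a ha)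
        · exact lt_irrefl _ (hR.hs i j h a ha a hja)
      rw [hXa]
      have := Finsupp.mem_support_iff.1 ha
      exact mul_ne_zero (inv_ne_zero hc0.ne') (mul_ne_zero (div_ne_zero hm0.ne' hN0.ne') this)
    intro a ha
    have ha1 : (((m N : ℚ)⁻¹) • SF) a ≠ 0 := Finsupp.mem_support_iff.1 ha
    rw [Finsupp.smul_apply, smul_eq_mul, hSF, Finsupp.finsetSum_apply] at ha1
    obtain ⟨i, hi, hia⟩ := exists_ne_zero_of_sum_ne_zero (right_ne_zero_of_mul ha1)
    obtain ⟨b, hb1, b', hb2, h1, h2⟩ := hφs i (Finsupp.mem_support_iff.2 hia)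
    exact ⟨b, hsupp i hi hb1, b', hsupp i hi hb2, h1, h2⟩
  · intro v s hs hw
    have h3 := seg_est hR (A := range N) (card_range N) hs hw
    have h4 := m_div_mul_GG hN1
    have h5 : 0 ≤ (m N : ℝ) / N := by positivity
    have h6 : 0 ≤ (m (ell v) : ℝ)⁻¹ := by positivity
    rw [e1, e1, abs_mul, abs_mul, abs_of_pos (inv_pos.2 hc0), abs_of_nonneg h5]
    calc c⁻¹ * ((m N : ℝ) / N * |ap s.fn X|)
        ≤ 2 * ((m N : ℝ) / N * (64 * GG N * (m (ell v) : ℝ)⁻¹ + 3)) :=
          mul_le_mul h2 (mul_le_mul_of_nonneg_left h3 h5) (by positivity) (by norm_num)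
      _ = 128 * ((m N : ℝ) / N * GG N) * (m (ell v) : ℝ)⁻¹ + 6 * ((m N : ℝ) / N) := by ring
      _ ≤ err v w := by
          unfold err
          nlinarith

/-- A branch is small on vectors far out whose weights it does not use. -/
theorem tendsto_br {Ψ : ℕ → Node} (hΨ : IsInf Ψ) {u : ℕ → Vec} {w : ℕ → ℕ}
    (hu : ∀ i, Sm (w i) (u i)) (hw : Tendsto w atTop atTop)
    (hne : ∀ᶠ i in atTop, ∀ k, (Ψ k).w ≠ w i) (hfar : ∀ a, ∀ᶠ i in atTop, a ∉ (u i).support) :
    Tendsto (fun i => pr (br Ψ) (u i)) atTop (𝓝 0) := by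
  have hell : Tendsto ell atTop atTop := H487.ell_strictMono.tendsto_atTop
  have h1 : Tendsto (fun v => 24576 * (m (ell v) : ℝ)⁻¹) atTop (𝓝 0) := by
    have h2 : Tendsto (fun v => (m (ell v) : ℝ)) atTop atTop := by
      refine tendsto_atTop_atTop.2 fun c => ?_
      obtain ⟨L, -, hL⟩ := exists_le_m c 0
      exact ⟨L, fun v hv => hL.trans (by
        exact_mod_cast H487.m_mono (hv.trans (lt_ell v).le))⟩
    simpa using h2.inv_tendsto_atTop.const_mul 24576
  have h2 : Tendsto (fun i => 6 * ((m (ell (w i)) : ℝ) / ell (w i))) atTop (𝓝 0) := by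
    simpa using ((m_small.comp hell).comp hw).const_mul 6
  rw [Metric.tendsto_nhds]
  intro ε hε
  obtain ⟨v, hv⟩ := (h1.eventually (gt_mem_nhds (half_pos hε))).exists
  have h3 : ∀ᶠ i in atTop, ∀ k ∈ range v, ∀ a ∈ (Ψ k).φ.support, a ∉ (u i).support := by
    rw [eventually_all_finset]
    intro k _
    rw [eventually_all_finset]
    exact fun a _ => hfar a
  filter_upwards [h3, hne, h2.eventually (gt_mem_nhds (half_pos hε))] with i hi1 hi2 hi3
  obtain ⟨N, hN⟩ := hΨ.exists_bound (u i).support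
  have hN' : ∀ k, N + v ≤ k → ∀ a ∈ (u i).support, (Ψ k).φ a = 0 := fun k hk => hN k (by omega)
  have h4 : pr (br Ψ) (u i) = ap (sg Ψ v (N + v)).fn (u i) := by
    rw [br, hΨ.pr_tl hN', hΨ.ap_sg,
      ← Finset.sum_Ico_consecutive _ (Nat.zero_le v) (show v ≤ N + v by omega),
      Finset.sum_eq_zero, zero_add]
    intro k hk
    exact ap_eq_zero (hi1 k (mem_range.2 (mem_Ico.1 hk).2))
  rw [dist_zero_right, Real.norm_eq_abs, h4]
  refine (hu i v _ (hΨ.ok_sg _ _) fun w' hw' => ?_).trans_lt (by unfold err; linarith)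
  obtain ⟨k, hk, rfl⟩ := hΨ.idx_sg hw'
  exact ⟨hi2 k, hk.trans (hΨ.lt_w k).le⟩

end Vale.Agent.N129X
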