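import Vale.Agent.N129X.Small
import Vale.Agent.P129.H471.Family

/-! Branches which are exact on vectors of countably many block sequences. -/

namespace Vale.Agent.N129X

open Set Filter Topology Cardinal Vale.Agent.P129 H448 H50 H471

theorem exists_ext' {l : W} {h : ℕ → Vec} (hb : IsBlock l h) (r : ℕ → Bool)
    {L : List (NodeBelow l)} (hL : L ∈ Tree l r) (k₀ : ℕ) :
    ∃ (x : NodeBelow l) (u : Vec), L ++ [x] ∈ Tree l r ∧
      u ∈ Submodule.span ℝ (h '' {k | k₀ ≤ k}) ∧ nrm u ≤ 3072 ∧ ap x.1.φ u = 1 ∧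
      (∀ a ∈ u.support, a < l) ∧
      (∀ i < L.length, ∀ a ∈ (fn L i).φ.support, ∀ b ∈ u.support, a < b) ∧ Sm x.1.w u := by
  classical
  obtain ⟨k₁, hk₁⟩ := exists_tail hb ((Finset.range L.length).biUnion fun i => (fn L i).φ.support)
    (by
      intro a ha
      obtain ⟨i, -, hi⟩ := Finset.mem_biUnion.1 ha
      exact fn_below L i a hi)
  obtain ⟨w₀, hw₀⟩ : ∃ w₀, w₀ = H853.sigma (H853.code F (fn L) L.length) := ⟨_, rfl⟩
  obtain ⟨u, φ, hu, huC, hφ, hap, hsub, hsm⟩ := supply hb w₀ (max k₀ k₁)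
  have hbN : ∀ i < L.length, ∀ a ∈ (fn L i).φ.support, ∀ b ∈ u.support, a < b := by
    intro i hi a ha b hbu
    obtain ⟨k, hk, hbk⟩ := mem_support_of_span hu b hbu
    exact hk₁ k ((le_max_right _ _).trans hk) a
      (Finset.mem_biUnion.2 ⟨i, Finset.mem_range.2 hi, ha⟩) b hbk
  have hul : ∀ a ∈ u.support, a < l := by
    intro a ha
    obtain ⟨k, -, hk⟩ := mem_support_of_span hu a ha
    exact hb.lt k a hk
  have hφl : ∀ a ∈ φ.support, a < l := fun a ha => ran_lt hul a (hsub ha)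
  have hslt : ∀ j < L.length, SLt (fn L j).φ.support φ.support := by
    intro j hj a ha b hbφ
    obtain ⟨c, hc, d, -, hcb, -⟩ := hsub hbφ
    exact (hbN j hj a ha c hc).trans_le hcb
  obtain ⟨p₀, hp₀⟩ : ∃ p₀ : ℕ, ∀ p, p₀ ≤ p →
      IsSpecial K (Function.update (fn L) L.length ⟨φ, w₀, p⟩) (L.length + 1) := by
    rw [hw₀] at hφ ⊢
    exact special_extend hL.1 hφ (ne_zero_of_ap hap) hslt
  obtain ⟨p, hp, hpar⟩ := exists_parity (r L.length) p₀
  have hset : {k | max k₀ k₁ ≤ k} ⊆ {k | k₀ ≤ k} := fun k hk => (le_max_left k₀ k₁).trans hk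
  refine ⟨⟨⟨φ, w₀, p⟩, hφl⟩, u, ⟨?_, ?_⟩, Submodule.span_mono (Set.image_mono hset) hu, huC, hap,
    hul, hbN, hsm⟩
  · rw [List.length_append, List.length_singleton]
    refine special_congr (fun j hj => ?_) (hp₀ p hp)
    rcases (Nat.lt_succ_iff.1 hj).eq_or_lt with h1 | h1
    · subst h1
      rw [Function.update_self, fn_append_self]
    · rw [Function.update_of_ne h1.ne, fn_append _ _ h1]
  · intro i hi
    rw [List.length_append, List.length_singleton] at hi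
    rcases (Nat.lt_succ_iff.1 hi).eq_or_lt with h1 | h1
    · subst h1
      rw [fn_append_self]
      exact hpar
    · rw [fn_append _ _ h1]
      exact hL.2 i h1

/-- a late node is exact on a vector of the tail of `h` -/
def DHit' (l : W) (h : ℕ → Vec) (n : ℕ) : Set (List (NodeBelow l)) :=
  {L | ∃ i, n ≤ i ∧ i + 1 < L.length ∧ ∃ u ∈ Submodule.span ℝ (h '' {k | n ≤ k}), nrm u ≤ 3072 ∧
    ap (fn L i).φ u = 1 ∧ (∀ j < i, SLt (fn L j).φ.support u.support) ∧
      SLt u.support (fn L (i + 1)).φ.support ∧ Sm (fn L i).w u}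

theorem dense_hit' {l : W} {h : ℕ → Vec} (hb : IsBlock l h) (r : ℕ → Bool) (n : ℕ)
    (s₀ : List (NodeBelow l)) (hs₀ : s₀ ∈ Tree l r) :
    ∃ t ∈ DHit' l h n, t ∈ Tree l r ∧ s₀ <+: t := by
  obtain ⟨s, hs, hss, hn⟩ := dense_length hb (supply hb).pair r n s₀ hs₀
  obtain ⟨x, u, h1, hu, huC, hap, hul, hbN, hsm⟩ := exists_ext' hb r hs n
  obtain ⟨y, v, h2, -, -, -, hsub', -, hS', -, -⟩ :=
    exists_ext hb (supply hb).pair r h1 u.support hul 0 0
  have e : fn (s ++ [x] ++ [y]) s.length = x.1 := by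
    rw [fn_append _ _ (by simp), fn_append_self]
  refine ⟨s ++ [x] ++ [y], ⟨s.length, hn, by simp, u, hu, huC, ?_, ?_, ?_, ?_⟩, h2, hss.trans ?_⟩
  · rw [e]
    exact hap
  · intro j hj
    rw [fn_append _ _ (by simp; omega), fn_append _ _ hj]
    exact hbN j hj
  · have : s.length + 1 = (s ++ [x]).length := by simp
    rw [this, fn_append_self]
    intro a ha b hby
    obtain ⟨c, hc, d, -, hcb, -⟩ := hsub' hby
    exact (hS' a ha c hc).trans_le hcb
  · rw [e]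
    exact hsm
  · rw [List.append_assoc]
    exact List.prefix_append _ _

/-- `b` takes vectors of every tail of `h` to `1`, and the other weights are small on them -/
def Hits (b : ℕ → Node) (h : ℕ → Vec) : Prop :=
  ∀ n : ℕ, ∃ j, n ≤ j ∧ ∃ u ∈ Submodule.span ℝ (h '' {k | n ≤ k}), nrm u ≤ 3072 ∧
    pr (H448.br b) u = 1 ∧ Sm (b j).w u

theorem exists_branches' (l : W) (r : ℕ → Bool) : ∃ B : ℝ → ℕ → Node,
    ∀ h : ℕ → ℕ → Vec, (∀ n, IsBlock l (h n)) →
      ∀ Bad : ℕ → ℕ → Node, ∀ᶠ x in residual ℝ, IsInf (B x) ∧ Cofinal (B x) l ∧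
        (∀ i, Par r (B x i) i) ∧ (∀ n, Hits (B x) (h n)) ∧ ∀ j, B x ≠ Bad j := by
  obtain ⟨B, hB⟩ := exists_reading_seq (nodeZero l) (Tree l r) (nil_mem_tree l r)
  refine ⟨fun x i => (B x i).1, fun h hb Bad => ?_⟩
  have hP := (supply (hb 0)).pair
  have hlen := dense_length (hb 0) hP r
  have h1 := hB (fun _ => univ) (fun _ s hs => ⟨s, mem_univ _, hs, List.prefix_rfl⟩) hlen
  have hcount : Countable (Iio l) := (countable_Iio l).to_subtype
  have h2 : ∀ᶠ x in residual ℝ, ∀ a : Iio l, ∃ L ∈ DCof l a, L ∈ Tree l r ∧ Init (B x) L := by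
    rw [eventually_countable_forall]
    intro a
    have := hB (fun _ => DCof l a) (fun _ => dense_cof (hb 0) hP r a a.2) hlen
    filter_upwards [this] with x hx
    exact hx.2 0
  have h3 : ∀ᶠ x in residual ℝ, ∀ q n, ∃ L ∈ DHit' l (h q) n, L ∈ Tree l r ∧ Init (B x) L := by
    rw [eventually_countable_forall]
    intro q
    filter_upwards [hB (DHit' l (h q)) (dense_hit' (hb q) r) hlen] with x hx
    exact hx.2
  have h4 := hB (fun j => DNe l (Bad j)) (fun j => dense_ne (hb 0) hP r (Bad j)) hlen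
  filter_upwards [h1, h2, h3, h4] with x hx1 hx2 hx3 hx4
  have hinf : IsInf fun i => (B x i).1 := by
    intro n
    obtain ⟨L, hL, hn, hI⟩ := hx1.1 n
    exact isSpecial_le (special_congr (fun j hj => fn_of_init hI hj) hL.1) hn
  refine ⟨hinf, ⟨fun k => (B x k).2, ?_⟩, ?_, ?_, ?_⟩
  · intro a ha
    obtain ⟨L, ⟨i, hi, hia⟩, -, hI⟩ := hx2 ⟨a, ha⟩
    refine ⟨i, fun c hc => hia c ?_⟩
    rw [fn_of_init hI hi]
    exact hc
  · intro i
    obtain ⟨L, hL, hn, hI⟩ := hx1.1 (i + 1)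
    rw [← fn_of_init hI (by omega)]
    exact hL.2 i (by omega)
  · intro q n
    obtain ⟨L, ⟨i, hni, hi, u, hu, huC, hap, hbef, haft, hsm⟩, -, hI⟩ := hx3 q n
    refine ⟨i, hni, u, hu, huC, ?_, ?_⟩
    · rw [pr_br_eq hinf (i := i)]
      · rw [← fn_of_init hI (by omega)]
        exact hap
      · intro j hj
        rw [← fn_of_init hI (by omega)]
        exact hbef j hj
      · rw [← fn_of_init hI hi]
        exact haft
    · rw [fn_of_init hI (by omega)] at hsm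
      exact hsm
  · intro j he
    obtain ⟨L, ⟨i, hi, hne⟩, -, hI⟩ := hx4.2 j
    refine hne ?_
    rw [fn_of_init hI hi]
    exact congrFun he i

/-- Countably many block sequences with the same supremum are hit by one late branch. -/
def HitsAll (𝓕 : Family) : Prop :=
  ∀ (l : W) (h : ℕ → ℕ → Vec), (∀ n, IsBlock l (h n)) → ∀ a : W, ∃ μ, a ≤ μ ∧ l ≤ μ ∧ ∃ Φ,
    𝓕.B μ = some Φ ∧ Cofinal Φ l ∧ ∀ n, Hits Φ (h n)

theorem HitsAll.killsAll {𝓕 : Family} (h𝓕 : HitsAll 𝓕) : 𝓕.KillsAll 3072 := by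
  intro l h hb a
  obtain ⟨μ, h1, h2, Φ, h3, h4, h5⟩ := h𝓕 l (fun _ => h) (fun _ => hb) a
  choose j hj u hu hC hpr hsm using h5 0
  exact ⟨μ, h1, h2, Φ, h3, h4, u, fun i => ⟨hu i, hC i, hpr i⟩⟩

theorem exists_hitsAll (hnm : H189.nonMeagre = ℵ_ 1) : ∃ 𝓕 : Family, HitsAll 𝓕 := by
  classical
  obtain ⟨S, hS, hScard⟩ := H189.nonMeagre_mem
  rw [hnm] at hScard
  obtain ⟨g, hg⟩ : ∃ g : W → ℝ, ∀ x ∈ S, ∃ ξ, g ξ = x := by
    have h1 : #W = #S := by rw [mk_W, hScard]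
    obtain ⟨e⟩ := Cardinal.eq.1 h1
    exact ⟨fun ξ => (e ξ : ℝ), fun x hx => ⟨e.symm ⟨x, hx⟩, by simp⟩⟩
  obtain ⟨r, hr⟩ := exists_parities
  choose B hB using fun l => exists_branches' l (r l)
  obtain ⟨data, hdata⟩ := H3.exists_cofinal_enumeration (ι := W) (D := W × W) mk_W countable_Iio
    (by
      rw [Cardinal.mk_prod]
      simp only [Cardinal.lift_id, mk_W]
      exact (Cardinal.mul_eq_self (Cardinal.aleph0_le_aleph 1)).le)
  let cand : W → ℕ → Node := fun μ => B (data μ).1 (g (data μ).2)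
  let base : W → Prop := fun μ => (data μ).1 ≤ μ ∧ IsInf (cand μ) ∧
    Cofinal (cand μ) (data μ).1 ∧ ∀ i, Par (r (data μ).1) (cand μ i) i
  let new : W → Prop := fun μ => ∀ ν < μ, base ν → (data ν).1 = (data μ).1 → cand ν ≠ cand μ
  let br : W → Option (ℕ → Node) := fun μ => if base μ ∧ new μ then some (cand μ) else none
  have hbr : ∀ μ b, br μ = some b → base μ ∧ new μ ∧ cand μ = b := by
    intro μ b h
    by_cases h1 : base μ ∧ new μ
    · have : some (cand μ) = some b := by rw [← h]; exact (if_pos h1).symm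
      exact ⟨h1.1, h1.2, Option.some.inj this⟩
    · have : (none : Option (ℕ → Node)) = some b := by rw [← h]; exact (if_neg h1).symm
      cases this
  refine ⟨⟨br, ?_, ?_, ?_⟩, ?_⟩
  · intro μ b h
    obtain ⟨⟨-, h3, -⟩, -, rfl⟩ := hbr μ b h
    exact h3
  · intro μ b h k a ha
    obtain ⟨⟨h2, -, h4, -⟩, -, rfl⟩ := hbr μ b h
    exact (h4.1 k a ha).trans_le h2
  · have key : ∀ μ ν b b', ν < μ → br μ = some b → br ν = some b' → AlmostDisj b b' := by
      intro μ ν b b' hlt h1 h2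
      obtain ⟨⟨-, hi, hc, hp⟩, hn, rfl⟩ := hbr μ b h1
      obtain ⟨⟨hle', hi', hc', hp'⟩, -, rfl⟩ := hbr ν b' h2
      by_cases hl : (data ν).1 = (data μ).1
      · by_contra hAD
        rw [hl] at hc'
        exact hn ν hlt ⟨hle', hi', by rw [hl]; exact hc', hp'⟩ hl
          (eq_of_not_almostDisj hi hi' hc hc' hAD).symm
      · have hrne : r (data μ).1 ≠ r (data ν).1 := fun h => hl (hr h).symm
        obtain ⟨i, hi3⟩ := Function.ne_iff.1 hrne
        refine almostDisj_of_ne hi hi' (i := i) fun hpp => hi3 ?_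
        rw [← hp i, ← hp' i, hpp]
    intro μ ν b b' hne h1 h2
    rcases lt_or_gt_of_ne hne with h | h
    · exact almostDisj_symm (key ν μ b' b h h2 h1)
    · exact key μ ν b b' h h1 h2
  · intro l h hb m
    obtain ⟨Bad, hBad⟩ : ∃ Bad : ℕ → ℕ → Node, ∀ ν, (ν < m ∨ ν < l) → ∃ j, Bad j = cand ν := by
      have hc : (Iio m ∪ Iio l).Countable := (countable_Iio m).union (countable_Iio l)
      obtain ⟨a, ha⟩ := (isLim_of_block (hb 0)).1
      obtain ⟨f, hf⟩ := hc.exists_eq_range ⟨a, Or.inr ha⟩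
      refine ⟨fun j => cand (f j), fun ν hν => ?_⟩
      have h1 : ν ∈ range f := by rw [← hf]; exact hν
      obtain ⟨j, rfl⟩ := h1
      exact ⟨j, rfl⟩
    obtain ⟨x, hxS, hinf, hcof, hpar, hkill, hne⟩ :=
      exists_mem_of_not_isMeagre hS (hB l h hb Bad)
    obtain ⟨ξ, hξ⟩ := hg x hxS
    obtain ⟨μ₀, hμ₀, hdμ₀⟩ := hdata (l, ξ) l
    let P : W → Prop := fun ν => base ν ∧ (data ν).1 = l ∧ cand ν = B l x
    have hcand : cand μ₀ = B l x := by
      change B (data μ₀).1 (g (data μ₀).2) = B l x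
      rw [hdμ₀, hξ]
    have hP₀ : P μ₀ := by
      refine ⟨⟨?_, ?_, ?_, ?_⟩, by rw [hdμ₀], hcand⟩
      · rw [hdμ₀]; exact hμ₀
      · rw [hcand]; exact hinf
      · rw [hcand, hdμ₀]; exact hcof
      · rw [hcand, hdμ₀]; exact hpar
    obtain ⟨μ, hμ, hmin⟩ : ∃ μ, P μ ∧ ∀ ν < μ, ¬ P ν := by
      have hwf : WellFounded (fun a b : W => a < b) := wellFounded_lt
      obtain ⟨μ, h1, h2⟩ := hwf.has_min {ν | P ν} ⟨μ₀, hP₀⟩
      exact ⟨μ, h1, fun ν hν hPν => h2 ν hPν hν⟩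
    obtain ⟨h1, h2, h3⟩ := hμ
    have h4 : ¬ (μ < m ∨ μ < l) := by
      intro h5
      obtain ⟨j, hj⟩ := hBad μ h5
      exact hne j (by rw [hj, h3])
    push Not at h4
    refine ⟨μ, h4.1, h4.2, B l x, ?_, hcof, hkill⟩
    have hnew : new μ := by
      intro ν hν hbν hdν hcν
      exact hmin ν hν ⟨hbν, hdν.trans h2, hcν.trans h3⟩
    have : br μ = some (cand μ) := if_pos ⟨h1, hnew⟩
    change br μ = _
    rw [this, h3]

end Vale.Agent.N129X
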